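import Vale.Agent.N069Q.Defs

/-! P069: finite sets of functionals instead of subspaces of finite codimension. -/

namespace Vale.Agent.N069Q

open Metric Filter Topology

universe u

variable {X : Type u} [NormedAddCommGroup X] [NormedSpace ℝ X]

/-- `y` is killed by all the functionals in `Φ`. -/
def Ker (Φ : Finset (StrongDual ℝ X)) (y : X) : Prop := ∀ φ ∈ Φ, φ y = 0

/-- `h` vanishes on `E`. -/
def Ann (E : Finset X) (h : StrongDual ℝ X) : Prop := ∀ x ∈ E, h x = 0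

theorem Ker.smul {Φ : Finset (StrongDual ℝ X)} {y : X} (h : Ker Φ y) (c : ℝ) : Ker Φ (c • y) :=
  fun φ hφ => by rw [map_smul, h φ hφ, smul_zero]

theorem Ker.mono {Φ Ψ : Finset (StrongDual ℝ X)} {y : X} (h : Ker Ψ y) (hs : Φ ⊆ Ψ) : Ker Φ y :=
  fun φ hφ => h φ (hs hφ)

theorem exists_cof (Φ : Finset (StrongDual ℝ X)) : ∃ F ∈ cof X, ∀ y ∈ F, Ker Φ y := by
  let g : X →L[ℝ] (Φ → ℝ) := ContinuousLinearMap.pi fun φ => φ.1
  refine ⟨g.ker, ⟨g.isClosed_ker, Submodule.CoFG.ker _⟩, fun y hy φ hφ => ?_⟩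
  have h : g y = 0 := hy
  exact congrFun h ⟨φ, hφ⟩

theorem exists_ker {F : Submodule ℝ X} (hF : F ∈ cof X) : ∃ Φ, ∀ y, Ker Φ y → y ∈ F := by
  classical
  have : IsClosed (F : Set X) := hF.1
  have : FiniteDimensional ℝ (X ⧸ F) := hF.2
  let b := Module.finBasis ℝ (X ⧸ F)
  let φ := b.equivFunL
  let g : _ → StrongDual ℝ X := fun j =>
    ((ContinuousLinearMap.proj j : (_ → ℝ) →L[ℝ] ℝ).comp φ.toContinuousLinearMap).comp F.mkQL
  refine ⟨Finset.univ.image g, fun y hy => ?_⟩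
  have h1 : φ (F.mkQL y) = 0 := by
    funext j
    exact hy (g j) (Finset.mem_image_of_mem g (Finset.mem_univ j))
  have h2 : F.mkQL y = 0 := φ.injective (by rw [h1, map_zero])
  exact (Submodule.Quotient.mk_eq_zero F).1 h2

/-- A weakly null net approaches every finite intersection of kernels. -/
theorem near_ker {ι : Type*} {l : Filter ι} {y : ι → X}
    (hy : ∀ f : StrongDual ℝ X, Tendsto (fun i => f (y i)) l (𝓝 0))
    (Φ : Finset (StrongDual ℝ X)) {ε : ℝ} (hε : 0 < ε) :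
    ∀ᶠ i in l, ∃ z, Ker Φ z ∧ ‖y i - z‖ < ε := by
  obtain ⟨F, hF, hK⟩ := exists_cof Φ
  have : IsClosed (F : Set X) := hF.1
  have : FiniteDimensional ℝ (X ⧸ F) := hF.2
  let b := Module.finBasis ℝ (X ⧸ F)
  let φ := b.equivFunL
  have h1 : Tendsto (fun i => φ (F.mkQL (y i))) l (𝓝 0) := by
    rw [tendsto_pi_nhds]
    intro j
    let g : StrongDual ℝ X :=
      ((ContinuousLinearMap.proj j : (_ → ℝ) →L[ℝ] ℝ).comp φ.toContinuousLinearMap).comp F.mkQL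
    exact hy g
  have h2 : Tendsto (fun i => F.mkQL (y i)) l (𝓝 0) := by
    have := (φ.symm.continuous.tendsto 0).comp h1
    simpa [Function.comp_def] using this
  have h3 : Tendsto (fun i => ‖F.mkQL (y i)‖) l (𝓝 0) := by
    simpa using h2.norm
  filter_upwards [h3.eventually (gt_mem_nhds (show (0 : ℝ) < ε / 2 by linarith))] with i hi
  obtain ⟨m, hm1, hm2⟩ := Submodule.Quotient.norm_mk_lt (F.mkQL (y i))
    (show (0 : ℝ) < ε / 2 by linarith)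
  refine ⟨y i - m, hK _ ?_, ?_⟩
  · rw [← Submodule.Quotient.mk_eq_zero, Submodule.Quotient.mk_sub, hm1]
    simp
  · have : y i - (y i - m) = m := by abel
    rw [this]
    linarith

/-- Two terms of a bounded sequence differ by an element close to a finite intersection of
kernels. -/
theorem near_pair (Φ : Finset (StrongDual ℝ X)) {y : ℕ → X} {R : ℝ}
    (hy : ∀ i, ‖y i‖ ≤ R) {ε : ℝ} (hε : 0 < ε) :
    ∃ i j, i ≠ j ∧ ∃ z, Ker Φ z ∧ ‖(y i - y j) - z‖ < ε := by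
  obtain ⟨F, hF, hK⟩ := exists_cof Φ
  have : IsClosed (F : Set X) := hF.1
  have : FiniteDimensional ℝ (X ⧸ F) := hF.2
  have : ProperSpace (X ⧸ F) := FiniteDimensional.proper_real _
  have hb : ∀ i, F.mkQ (y i) ∈ Metric.closedBall (0 : X ⧸ F) R := by
    intro i
    rw [mem_closedBall_zero_iff]
    exact (Submodule.Quotient.norm_mk_le F (y i)).trans (hy i)
  obtain ⟨a, _, φ, hφ, hlim⟩ :=
    (isCompact_closedBall (0 : X ⧸ F) R).tendsto_subseq hb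
  have hc := hlim.cauchySeq
  rw [Metric.cauchySeq_iff] at hc
  obtain ⟨N, hN⟩ := hc (ε / 2) (by linarith)
  have h1 := hN N le_rfl (N + 1) (by omega)
  rw [dist_eq_norm, Function.comp_apply, Function.comp_apply, ← map_sub] at h1
  obtain ⟨m, hm1, hm2⟩ := Submodule.Quotient.norm_mk_lt (F.mkQ (y (φ N) - y (φ (N + 1))))
    (show (0 : ℝ) < ε / 2 by linarith)
  refine ⟨φ N, φ (N + 1), (hφ (Nat.lt_succ_self N)).ne, (y (φ N) - y (φ (N + 1))) - m,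
    hK _ ?_, ?_⟩
  · rw [← Submodule.Quotient.mk_eq_zero, Submodule.Quotient.mk_sub, hm1]
    simp
  · have : (y (φ N) - y (φ (N + 1))) - ((y (φ N) - y (φ (N + 1))) - m) = m := by abel
    rw [this]
    linarith

/-- A functional on a quotient, read on the space. -/
theorem norm_comp_mkQL_le (Y : Submodule ℝ X) (g : StrongDual ℝ (X ⧸ Y)) :
    ‖g.comp Y.mkQL‖ ≤ ‖g‖ :=
  ContinuousLinearMap.opNorm_le_bound _ g.opNorm_nonneg fun x =>
    (g.le_opNorm _).trans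
      (mul_le_mul_of_nonneg_left (Submodule.Quotient.norm_mk_le Y x) g.opNorm_nonneg)

theorem le_norm_mk (Y : Submodule ℝ X) {y : X} {c : ℝ} (h : ∀ e ∈ Y, c ≤ ‖e + y‖) :
    c ≤ ‖Y.mkQL y‖ := by
  refine le_of_forall_pos_le_add fun ε hε => ?_
  obtain ⟨m, hm1, hm2⟩ := Submodule.Quotient.norm_mk_lt (Y.mkQL y) hε
  have h1 : m - y ∈ Y := (Submodule.Quotient.eq Y).1 hm1
  have h2 := h _ h1
  rw [sub_add_cancel] at h2
  exact h2.trans hm2.le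

/-- Mazur's lemma. -/
theorem mazur (E : Finset X) : ∃ Φ : Finset (StrongDual ℝ X), ∀ y, Ker Φ y →
    ∃ h : StrongDual ℝ X, Ann E h ∧ ‖h‖ ≤ 1 ∧ ‖y‖ / 3 ≤ h y := by
  classical
  let S : Submodule ℝ X := Submodule.span ℝ (E : Set X)
  have : FiniteDimensional ℝ S := FiniteDimensional.span_finset ℝ E
  have : ProperSpace S := FiniteDimensional.proper_real _
  choose φ hφ1 hφ2 using fun x : X => exists_dual_vector'' ℝ x
  simp only [RCLike.ofReal_real_eq_id, id_eq] at hφ2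
  obtain ⟨t, ht0, ht⟩ := (isCompact_sphere (0 : S) 1).elim_nhds_subcover
    (fun e => {e' : S | ‖(e : X)‖ - 1 / 2 < φ e e'}) (fun e _ => by
      refine IsOpen.mem_nhds (isOpen_lt continuous_const (by fun_prop)) ?_
      change _ < φ e e
      rw [hφ2]
      linarith)
  refine ⟨t.image fun e : S => φ e, fun y hy => ?_⟩
  have key : ∀ e ∈ S, ‖e‖ ≤ 2 * ‖e + y‖ := by
    intro e he
    rcases eq_or_ne e 0 with rfl | h0
    · simp
    have hn : 0 < ‖e‖ := norm_pos_iff.2 h0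
    have h1 : (⟨‖e‖⁻¹ • e, S.smul_mem _ he⟩ : S) ∈ sphere (0 : S) 1 := by
      rw [mem_sphere_zero_iff_norm]
      change ‖‖e‖⁻¹ • e‖ = 1
      rw [norm_smul, norm_inv, norm_norm, inv_mul_cancel₀ hn.ne']
    obtain ⟨a, ha, h2⟩ := Set.mem_iUnion₂.1 (ht h1)
    have h3 : ‖(a : X)‖ = 1 := mem_sphere_zero_iff_norm.1 (ht0 a ha)
    have h4 : ‖(a : X)‖ - 1 / 2 < φ a (‖e‖⁻¹ • e) := h2
    rw [h3, map_smul, smul_eq_mul, ← div_eq_inv_mul, lt_div_iff₀ hn] at h4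
    have h5 : φ a y = 0 := hy _ (Finset.mem_image_of_mem (fun e : S => φ e) ha)
    have h6 : φ a (e + y) ≤ ‖e + y‖ := by
      refine (le_abs_self _).trans (((φ a).le_opNorm _).trans ?_)
      exact mul_le_of_le_one_left (norm_nonneg _) (hφ1 _)
    rw [map_add, h5] at h6
    linarith
  have h1 : ‖y‖ / 3 ≤ ‖S.mkQL y‖ := le_norm_mk S fun e he => by
    have h2 := key e he
    have h3 : ‖y‖ ≤ ‖e + y‖ + ‖e‖ := by
      have := norm_sub_le (e + y) e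
      rwa [add_sub_cancel_left] at this
    linarith
  have : IsClosed (S : Set X) := S.closed_of_finiteDimensional
  obtain ⟨g, hg1, hg2⟩ := exists_dual_vector'' ℝ (S.mkQL y)
  refine ⟨g.comp S.mkQL, fun x hx => ?_, (norm_comp_mkQL_le S g).trans hg1, ?_⟩
  · have : S.mkQL x = 0 := (Submodule.Quotient.mk_eq_zero S).2 (Submodule.subset_span hx)
    rw [ContinuousLinearMap.comp_apply, this, map_zero]
  · rw [ContinuousLinearMap.comp_apply, hg2]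
    exact h1

/-! ### The moduli, unfolded -/

variable (X) in
/-- Asymptotic uniform convexity in one of the directions `σ ∈ S`. -/
def Conv (S : Set ℝ) : Prop :=
  ∀ t : ℝ, 0 < t → ∃ δ : ℝ, 0 < δ ∧ ∀ x : X, ‖x‖ = 1 → ∃ Φ, ∀ y, Ker Φ y → ‖y‖ = 1 →
    ∃ σ ∈ S, 1 + δ ≤ ‖x + σ • t • y‖

theorem unfold_pos {g : X → X → ℝ}
    (h : 0 < ⨅ x ∈ sphere (0 : X) 1, ⨆ F ∈ cof X, ⨅ y ∈ (F : Set X) ∩ sphere 0 1,
      ((g x y - 1 : ℝ) : EReal)) :
    ∃ δ : ℝ, 0 < δ ∧ ∀ x : X, ‖x‖ = 1 → ∃ Φ, ∀ y, Ker Φ y → ‖y‖ = 1 → 1 + δ ≤ g x y := by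
  obtain ⟨d, hd1, hd2⟩ := EReal.lt_iff_exists_real_btwn.1 h
  refine ⟨d, by exact_mod_cast hd1, fun x hx => ?_⟩
  have h1 := hd2.trans_le (iInf₂_le x (mem_sphere_zero_iff_norm.2 hx))
  obtain ⟨F, hF⟩ := lt_iSup_iff.1 h1
  obtain ⟨hF0, hF⟩ := lt_iSup_iff.1 hF
  obtain ⟨Φ, hΦ⟩ := exists_ker hF0
  refine ⟨Φ, fun y hy hy1 => ?_⟩
  have h2 := hF.trans_le (iInf₂_le y ⟨hΦ y hy, mem_sphere_zero_iff_norm.2 hy1⟩)
  have h3 : d < g x y - 1 := by exact_mod_cast h2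
  linarith

theorem fold_pos {g : X → X → ℝ} {δ : ℝ} (hδ : 0 < δ)
    (h : ∀ x : X, ‖x‖ = 1 → ∃ Φ, ∀ y, Ker Φ y → ‖y‖ = 1 → 1 + δ ≤ g x y) :
    0 < ⨅ x ∈ sphere (0 : X) 1, ⨆ F ∈ cof X, ⨅ y ∈ (F : Set X) ∩ sphere 0 1,
      ((g x y - 1 : ℝ) : EReal) := by
  refine lt_of_lt_of_le (b := (δ : EReal)) (by exact_mod_cast hδ) (le_iInf₂ fun x hx => ?_)
  obtain ⟨Φ, hΦ⟩ := h x (mem_sphere_zero_iff_norm.1 hx)
  obtain ⟨F, hF, hK⟩ := exists_cof Φ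
  refine le_iSup₂_of_le F hF (le_iInf₂ fun y hy => ?_)
  have h1 := hΦ y (hK y hy.1) (mem_sphere_zero_iff_norm.1 hy.2)
  have h2 : δ ≤ g x y - 1 := by linarith
  exact_mod_cast h2

theorem auc_iff : AUC X ↔ Conv X {1} := by
  refine forall₂_congr fun t _ => ⟨fun h => ?_, fun ⟨δ, hδ, h⟩ => fold_pos hδ ?_⟩
  · obtain ⟨δ, hδ, h⟩ := unfold_pos h
    simpa using ⟨δ, hδ, h⟩
  · simpa using h

theorem amuc_iff : AMUC X ↔ Conv X {1, -1} := by
  refine forall₂_congr fun t _ => ⟨fun h => ?_, fun ⟨δ, hδ, h⟩ => fold_pos hδ ?_⟩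
  · obtain ⟨δ, hδ, h⟩ := unfold_pos h
    exact ⟨δ, hδ, by simpa [sub_eq_add_neg] using h⟩
  · simpa [sub_eq_add_neg] using h

theorem AUC.amuc (h : AUC X) : AMUC X := by
  rw [amuc_iff]
  intro t ht
  obtain ⟨δ, hδ, h⟩ := auc_iff.1 h t ht
  refine ⟨δ, hδ, fun x hx => (h x hx).imp fun Φ hΦ y hy hy1 => ?_⟩
  obtain ⟨σ, hσ, h1⟩ := hΦ y hy hy1
  exact ⟨σ, Or.inl hσ, h1⟩

theorem AUCable.amuc (h : AUCable X) : AMUCable X := by
  obtain ⟨Y, _, _, e, h⟩ := h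
  exact ⟨Y, _, _, e, h.amuc⟩

/-- The additive form of asymptotic uniform convexity on a ball. -/
theorem Conv.step {S : Set ℝ} (h : Conv X S) (h1 : (1 : ℝ) ∈ S) {κ R : ℝ} (hκ : 0 < κ)
    (hR : 0 < R) : ∃ δ : ℝ, 0 < δ ∧ ∀ u : X, ‖u‖ ≤ R → ∃ Φ, ∀ x, Ker Φ x → κ ≤ ‖x‖ →
      ∃ σ ∈ S, ‖u‖ + δ ≤ ‖u + σ • x‖ := by
  obtain ⟨d, hd, h⟩ := h (κ / R) (by positivity)
  refine ⟨min (κ / 3) (κ / 3 * d), lt_min (by positivity) (by positivity), fun u hu => ?_⟩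
  rcases le_or_gt ‖u‖ (κ / 3) with hs | hb
  · refine ⟨∅, fun x _ hx => ⟨1, h1, ?_⟩⟩
    have h2 := norm_sub_le (u + x) u
    rw [add_sub_cancel_left] at h2
    rw [one_smul]
    linarith [min_le_left (κ / 3) (κ / 3 * d)]
  have hu0 : 0 < ‖u‖ := by linarith
  obtain ⟨Φ, hΦ⟩ := h (‖u‖⁻¹ • u) (by rw [norm_smul, norm_inv, norm_norm, inv_mul_cancel₀ hu0.ne'])
  refine ⟨Φ, fun x hx hκx => ?_⟩
  have hx0 : 0 < ‖x‖ := by linarith
  obtain ⟨σ, hσ, h2⟩ := hΦ (‖x‖⁻¹ • x) (hx.smul _)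
    (by rw [norm_smul, norm_inv, norm_norm, inv_mul_cancel₀ hx0.ne'])
  refine ⟨σ, hσ, ?_⟩
  obtain ⟨r, hr⟩ : ∃ r : ℝ, r = κ / R * ‖x‖⁻¹ * ‖u‖ := ⟨_, rfl⟩
  have hr0 : 0 < r := by rw [hr]; positivity
  have hr1 : r ≤ 1 := by
    have e : r = (κ / ‖x‖) * (‖u‖ / R) := by rw [hr]; field_simp
    rw [e]
    exact mul_le_one₀ ((div_le_one hx0).2 hκx) (by positivity) ((div_le_one hR).2 hu)
  have h3 : ‖u‖⁻¹ • u + σ • (κ / R) • ‖x‖⁻¹ • x =
      ‖u‖⁻¹ • ((1 - r) • u + r • (u + σ • x)) := by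
    have e : κ / R * ‖x‖⁻¹ = ‖u‖⁻¹ * r := by rw [hr]; field_simp
    rw [smul_smul (κ / R), e]
    module
  rw [h3, norm_smul, norm_inv, norm_norm, ← div_eq_inv_mul, le_div_iff₀ hu0] at h2
  have h4 := norm_add_le ((1 - r) • u) (r • (u + σ • x))
  rw [norm_smul, norm_smul, Real.norm_of_nonneg hr0.le,
    Real.norm_of_nonneg (by linarith : 0 ≤ 1 - r)] at h4
  have h5 : d * ‖u‖ ≤ r * (‖u + σ • x‖ - ‖u‖) := by nlinarith
  have h6 : 0 ≤ ‖u + σ • x‖ - ‖u‖ := by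
    by_contra hc
    push Not at hc
    nlinarith [mul_pos hd hu0, mul_neg_of_pos_of_neg hr0 hc]
  have h7 : r * (‖u + σ • x‖ - ‖u‖) ≤ ‖u + σ • x‖ - ‖u‖ := mul_le_of_le_one_left h6 hr1
  have h8 : κ / 3 * d ≤ d * ‖u‖ := by nlinarith
  linarith [min_le_right (κ / 3) (κ / 3 * d)]

end Vale.Agent.N069Q
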