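import Mathlib
import Vale.Agent.P069.H778.Defs

/-! P069: asymptotic moduli of a normed space, renormings as isomorphic copies, diamonds. -/

namespace Vale.Agent.N069Q

open Metric Vale.Agent.P069.H778

universe u

variable (X : Type u) [NormedAddCommGroup X] [NormedSpace ℝ X]

/-- The closed subspaces of finite codimension. -/
def cof : Set (Submodule ℝ X) := {F | IsClosed (F : Set X) ∧ F.CoFG}

/-- The modulus of asymptotic uniform convexity of the norm of `X`. -/
noncomputable def aucMod (t : ℝ) : EReal :=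
  ⨅ x ∈ sphere (0 : X) 1, ⨆ F ∈ cof X, ⨅ y ∈ (F : Set X) ∩ sphere 0 1,
    ((‖x + t • y‖ - 1 : ℝ) : EReal)

/-- The modulus of asymptotic midpoint uniform convexity of the norm of `X`. -/
noncomputable def amucMod (t : ℝ) : EReal :=
  ⨅ x ∈ sphere (0 : X) 1, ⨆ F ∈ cof X, ⨅ y ∈ (F : Set X) ∩ sphere 0 1,
    ((max ‖x + t • y‖ ‖x - t • y‖ - 1 : ℝ) : EReal)

/-- The norm of `X` is asymptotically uniformly convex. -/
def AUC : Prop := ∀ t : ℝ, 0 < t → 0 < aucMod X t

/-- The norm of `X` is asymptotically midpoint uniformly convex. -/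
def AMUC : Prop := ∀ t : ℝ, 0 < t → 0 < amucMod X t

/-- `X` is isomorphic to a space whose norm is AUC. -/
def AUCable : Prop :=
  ∃ (Y : Type u) (_ : NormedAddCommGroup Y) (_ : NormedSpace ℝ Y), Nonempty (X ≃L[ℝ] Y) ∧ AUC Y

/-- `X` is isomorphic to a space whose norm is AMUC. -/
def AMUCable : Prop :=
  ∃ (Y : Type u) (_ : NormedAddCommGroup Y) (_ : NormedSpace ℝ Y), Nonempty (X ≃L[ℝ] Y) ∧ AMUC Y

/-- The canonical map into the bidual is onto. -/
def Reflexive : Prop := Function.Surjective (NormedSpace.inclusionInDoubleDual ℝ X)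

omit [NormedSpace ℝ X] in
/-- All the countably branching diamonds embed into `X` with distortion at most `D`. -/
def Diamonds (D : ℝ) : Prop :=
  ∀ k : ℕ, ∃ (f : (diamond k).V → X) (s : ℝ), 0 < s ∧ ∀ a b,
    s * (diamond k).E.dist a b ≤ ‖f a - f b‖ ∧ ‖f a - f b‖ ≤ D * (s * (diamond k).E.dist a b)

end Vale.Agent.N069Q
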