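import Vale.Agent.N069Q.Basic
import Vale.Agent.P069.H778.Graph

/-! P069: martingale trees give embeddings of the diamonds. -/

namespace Vale.Agent.N069Q

open Vale.Agent.P069.H778

universe u

/-- A bounded tree in which every node is the midpoint of infinitely many pairs of successors,
with biorthogonal functionals. -/
structure Sys (W : Type u) [NormedAddCommGroup W] [NormedSpace ℝ W] (k : ℕ) (R A : ℝ) where
  /-- the nodes -/
  z : List (ℕ × Bool) → W
  /-- the increments -/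
  w : List (ℕ × Bool) → ℕ → W
  /-- the height functional -/
  γ : W →ₗ[ℝ] ℝ
  /-- the biorthogonal functionals -/
  ψ : List (ℕ × Bool) → ℕ → W →ₗ[ℝ] ℝ
  z_t : ∀ s i, z ((i, true) :: s) = z s + w s i
  z_f : ∀ s i, z ((i, false) :: s) = z s - w s i
  z_le : ∀ s, s.length ≤ k → ‖z s‖ ≤ R
  γ_le : ∀ v, |γ v| ≤ A * ‖v‖
  ψ_le : ∀ s i v, |ψ s i v| ≤ A * ‖v‖
  γ_z : γ (z []) = 1
  γ_w : ∀ s i, γ (w s i) = 0
  ψ_z : ∀ s i, ψ s i (z []) = 0
  ψ_w : ∀ s i, s.length < k → ψ s i (w s i) = 1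
  ψ_w' : ∀ s i s' i', (s', i') ≠ (s, i) → ψ s i (w s' i') = 0

variable {W : Type u} [NormedAddCommGroup W] [NormedSpace ℝ W] {k : ℕ} {R A : ℝ}

theorem Sys.γ_one (S : Sys W k R A) (s : List (ℕ × Bool)) : S.γ (S.z s) = 1 := by
  induction s with
  | nil => exact S.γ_z
  | cons a s ih =>
    obtain ⟨i, _ | _⟩ := a
    · rw [S.z_f, map_sub, ih, S.γ_w, sub_zero]
    · rw [S.z_t, map_add, ih, S.γ_w, add_zero]

/-- A point on the segment joining the images of two vertices. -/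
def pt {V : Type} (f : V → W) (a b : V) (t : ℝ) : W := (1 - t) • f a + t • f b

/-- A bounded functional which does not see the levels from `j` on. -/
def Sys.Good (S : Sys W k R A) (j : ℕ) (φ : W →ₗ[ℝ] ℝ) : Prop :=
  (∀ v, |φ v| ≤ A * ‖v‖) ∧ ∀ s i, j ≤ s.length → φ (S.w s i) = 0

/-- The invariant of the construction. -/
structure Sys.Inv (S : Sys W k R A) (j : ℕ) {V : Type} (G : SimpleGraph V) (f : V → W)
    (ν : Sym2 V → List (ℕ × Bool)) : Prop where
  zz : ∀ a b, G.Adj a b → f b - f a = S.z (ν s(a, b)) ∨ f a - f b = S.z (ν s(a, b))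
  len : ∀ a b, G.Adj a b → (ν s(a, b)).length = j
  inj : ∀ a b c d, G.Adj a b → G.Adj c d → ν s(a, b) = ν s(c, d) → s(a, b) = s(c, d)
  kill : ∀ a s i, j ≤ s.length → S.ψ s i (f a) = 0
  low : ∀ ρ : V → ℝ, (∀ a b, G.Adj a b → |ρ a - ρ b| ≤ 1) → ∀ a b c d t τ x y, G.Adj a b →
    G.Adj c d → |x - ρ a| ≤ t → |x - ρ b| ≤ 1 - t → |y - ρ c| ≤ τ → |y - ρ d| ≤ 1 - τ →
    s(a, b) = s(c, d) ∨ ∃ φ, S.Good j φ ∧ |x - y| ≤ 3 * |φ (pt f a b t) - φ (pt f c d τ)|

theorem Sys.Inv.ht {S : Sys W k R A} {j : ℕ} {V : Type} {G : SimpleGraph V} {f : V → W}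
    {ν : Sym2 V → List (ℕ × Bool)} (h : S.Inv j G f ν) {a b : V} (hab : G.Adj a b) :
    S.γ (f b) - S.γ (f a) = 1 ∨ S.γ (f b) - S.γ (f a) = -1 := by
  rcases h.zz a b hab with e | e
  · left
    rw [← map_sub, e, S.γ_one]
  · right
    have := S.γ_one (ν s(a, b))
    rw [← e, map_sub] at this
    linarith

theorem Sys.inv_zero (S : Sys W k R A) :
    S.Inv 0 (⊤ : SimpleGraph Bool) (fun b => if b then S.z [] else 0) fun _ => [] where
  zz a b h := by cases a <;> cases b <;> simp at h ⊢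
  len _ _ _ := rfl
  inj a b c d h h' _ := by cases a <;> cases b <;> cases c <;> cases d <;> simp at h h' ⊢
  kill a s i _ := by cases a <;> simp [S.ψ_z]
  low _ _ a b c d _ _ _ _ h h' _ _ _ _ := Or.inl (by
    cases a <;> cases b <;> cases c <;> cases d <;> simp at h h' ⊢)

section step

variable {V : Type} {G : SimpleGraph V}

theorem adj_nf {P Q : V ⊕ (G.edgeSet × ℕ)} (h : (subdivide G).Adj P Q) :
    ∃ (a b : V) (h : G.Adj a b) (i : ℕ), (P = .inl a ∧ Q = .inr (⟨s(a, b), h⟩, i)) ∨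
      (Q = .inl a ∧ P = .inr (⟨s(a, b), h⟩, i)) := by
  have key : ∀ (a : V) (p : G.edgeSet × ℕ), a ∈ p.1.1 →
      ∃ (b : V) (h : G.Adj a b), p = (⟨s(a, b), h⟩, p.2) := by
    rintro a ⟨⟨e, he⟩, i⟩ ha
    obtain ⟨b, rfl⟩ := Sym2.mem_iff_exists.1 ha
    exact ⟨b, he, rfl⟩
  rcases P with a | p <;> rcases Q with b | q
  · exact h.elim
  · obtain ⟨b, h1, h2⟩ := key a q h
    exact ⟨a, b, h1, q.2, Or.inl ⟨rfl, congrArg _ h2⟩⟩
  · obtain ⟨c, h1, h2⟩ := key b p h
    exact ⟨b, c, h1, p.2, Or.inr ⟨rfl, congrArg _ h2⟩⟩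
  · exact h.elim

/-- The sum of the images of the end points of an edge. -/
def sm (f : V → W) : Sym2 V → W := Sym2.lift ⟨fun a b => f a + f b, fun _ _ => add_comm _ _⟩

/-- The embedding at the next level. -/
def Sys.nf (S : Sys W k R A) (G : SimpleGraph V) (f : V → W) (ν : Sym2 V → List (ℕ × Bool)) :
    V ⊕ (G.edgeSet × ℕ) → W
  | .inl a => (2 : ℝ) • f a
  | .inr p => sm f p.1.1 + S.w (ν p.1.1) p.2

open Classical in
/-- The label of a new edge. -/
noncomputable def Sys.lab (S : Sys W k R A) (G : SimpleGraph V) (f : V → W)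
    (ν : Sym2 V → List (ℕ × Bool)) :
    V ⊕ (G.edgeSet × ℕ) → V ⊕ (G.edgeSet × ℕ) → List (ℕ × Bool)
  | .inl a, .inr p => (p.2, decide (2 * S.γ (f a) < S.γ (sm f p.1.1))) :: ν p.1.1
  | .inr p, .inl a => (p.2, decide (2 * S.γ (f a) < S.γ (sm f p.1.1))) :: ν p.1.1
  | .inl _, .inl _ => []
  | .inr _, .inr _ => []

/-- The labelling at the next level. -/
noncomputable def Sys.nν (S : Sys W k R A) (G : SimpleGraph V) (f : V → W)
    (ν : Sym2 V → List (ℕ × Bool)) : Sym2 (V ⊕ (G.edgeSet × ℕ)) → List (ℕ × Bool) :=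
  Sym2.lift ⟨S.lab G f ν, by rintro (a | p) (b | q) <;> rfl⟩

variable {S : Sys W k R A} {f : V → W} {ν : Sym2 V → List (ℕ × Bool)} {j : ℕ}

open Classical in
theorem nν_eq {a b : V} (h : G.Adj a b) (i : ℕ) :
    S.nν G f ν s(.inl a, .inr (⟨s(a, b), h⟩, i)) =
      (i, decide (S.γ (f a) < S.γ (f b))) :: ν s(a, b) := by
  change (i, decide (2 * S.γ (f a) < S.γ (f a + f b))) :: ν s(a, b) = _
  rw [map_add, two_mul]
  simp

theorem nf_inr {a b : V} (h : G.Adj a b) (i : ℕ) :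
    S.nf G f ν (.inr (⟨s(a, b), h⟩, i)) = f a + f b + S.w (ν s(a, b)) i := rfl

theorem nf_inl (a : V) : S.nf G f ν (.inl a) = (2 : ℝ) • f a := rfl

theorem pt_nf {ρ : V ⊕ (G.edgeSet × ℕ) → ℝ}
    (hρ : ∀ a b, (subdivide G).Adj a b → |ρ a - ρ b| ≤ 1) {P Q : V ⊕ (G.edgeSet × ℕ)}
    (h : (subdivide G).Adj P Q) {t x : ℝ} (h1 : |x - ρ P| ≤ t) (h2 : |x - ρ Q| ≤ 1 - t) :
    ∃ (a b : V) (h : G.Adj a b) (i : ℕ) (τ : ℝ), s(P, Q) = s(.inl a, .inr (⟨s(a, b), h⟩, i)) ∧
      pt (S.nf G f ν) P Q t = (2 : ℝ) • pt f a b (τ / 2) + τ • S.w (ν s(a, b)) i ∧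
      |x - ρ (.inl a)| ≤ τ ∧ |x - ρ (.inr (⟨s(a, b), h⟩, i))| ≤ 1 - τ ∧
      |x - ρ (.inl b)| ≤ 2 - τ := by
  obtain ⟨a, b, hab, i, h3⟩ := adj_nf h
  have h4 := hρ _ _ (adj_inr_inl (a := b) (p := (⟨s(a, b), hab⟩, i)) (by simp))
  have h5 := abs_sub_le x (ρ (.inr (⟨s(a, b), hab⟩, i))) (ρ (.inl b))
  rcases h3 with ⟨rfl, rfl⟩ | ⟨rfl, rfl⟩
  · refine ⟨a, b, hab, i, t, rfl, ?_, h1, h2, by linarith⟩
    simp only [pt, nf_inr, nf_inl]
    module
  · refine ⟨a, b, hab, i, 1 - t, Sym2.eq_swap, ?_, h2, by linarith, by linarith⟩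
    simp only [pt, nf_inr, nf_inl]
    module

theorem Sys.Inv.succ (H : S.Inv j G f ν) (hj : j < k) :
    S.Inv (j + 1) (subdivide G) (S.nf G f ν) (S.nν G f ν) where
  zz P Q h := by
    have key : ∀ (a b : V) (h : G.Adj a b) (i : ℕ),
        S.nf G f ν (.inr (⟨s(a, b), h⟩, i)) - S.nf G f ν (.inl a) =
          S.z (S.nν G f ν s(.inl a, .inr (⟨s(a, b), h⟩, i))) ∨
        S.nf G f ν (.inl a) - S.nf G f ν (.inr (⟨s(a, b), h⟩, i)) =
          S.z (S.nν G f ν s(.inl a, .inr (⟨s(a, b), h⟩, i))) := by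
      intro a b h i
      rw [nν_eq, nf_inr, nf_inl]
      have h1 := S.γ_one (ν s(a, b))
      rcases H.zz a b h with e | e
      · left
        rw [← e, map_sub] at h1
        rw [decide_eq_true (by linarith), S.z_t, ← e]
        module
      · right
        rw [← e, map_sub] at h1
        rw [decide_eq_false (by linarith), S.z_f, ← e]
        module
    obtain ⟨a, b, hab, i, ⟨rfl, rfl⟩ | ⟨rfl, rfl⟩⟩ := adj_nf h
    · exact key a b hab i
    · rw [Sym2.eq_swap (b := Sum.inl a)]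
      exact (key a b hab i).symm
  len P Q h := by
    obtain ⟨a, b, hab, i, ⟨rfl, rfl⟩ | ⟨rfl, rfl⟩⟩ := adj_nf h
    · rw [nν_eq, List.length_cons, H.len a b hab]
    · rw [Sym2.eq_swap (b := Sum.inl a), nν_eq, List.length_cons, H.len a b hab]
  inj P Q P' Q' h h' := by
    have key : ∀ {P Q : V ⊕ (G.edgeSet × ℕ)}, (subdivide G).Adj P Q →
        ∃ (a b : V) (h : G.Adj a b) (i : ℕ), s(P, Q) = s(.inl a, .inr (⟨s(a, b), h⟩, i)) := by
      intro P Q h
      obtain ⟨a, b, hab, i, ⟨rfl, rfl⟩ | ⟨rfl, rfl⟩⟩ := adj_nf h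
      · exact ⟨a, b, hab, i, rfl⟩
      · exact ⟨a, b, hab, i, Sym2.eq_swap⟩
    obtain ⟨a, b, hab, i, e⟩ := key h
    obtain ⟨c, d, hcd, i', e'⟩ := key h'
    rw [e, e', nν_eq, nν_eq]
    intro h1
    simp only [List.cons.injEq, Prod.mk.injEq, decide_eq_decide] at h1
    obtain ⟨⟨rfl, h2⟩, h3⟩ := h1
    rcases Sym2.eq_iff.1 (H.inj a b c d hab hcd h3) with ⟨rfl, rfl⟩ | ⟨rfl, rfl⟩
    · rfl
    · exfalso
      rcases H.ht hab with h4 | h4
      · linarith [h2.1 (by linarith)]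
      · linarith [h2.2 (by linarith)]
  kill P s i hs := by
    rcases P with a | ⟨⟨e, he⟩, i'⟩
    · rw [nf_inl, map_smul, H.kill a s i (by omega), smul_zero]
    · induction e using Sym2.ind with
      | _ a b =>
        have h1 := H.len a b he
        rw [nf_inr he, map_add, map_add, H.kill a s i (by omega), H.kill b s i (by omega),
          S.ψ_w' _ _ _ _ fun h => by
            rw [(Prod.mk.inj h).1] at h1
            omega]
        simp
  low ρ hρ P Q P' Q' t₀ τ₀ x y h h' k1 k2 k3 k4 := by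
    obtain ⟨a, b, hab, i, t, e1, e2, a1, a2, a3⟩ := pt_nf (S := S) (f := f) (ν := ν) hρ h k1 k2
    obtain ⟨c, d, hcd, i', τ, e3, e4, b1, b2, b3⟩ := pt_nf (S := S) (f := f) (ν := ν) hρ h' k3 k4
    rw [e1, e2, e3, e4]
    have l1 := H.len a b hab
    have l2 := H.len c d hcd
    have half : ∀ u v r : ℝ, |u - v| ≤ r → |u / 2 - v / 2| ≤ r / 2 := fun u v r h => by
      rw [abs_le] at h ⊢
      constructor <;> linarith [h.1, h.2]
    rcases H.low (fun a => ρ (.inl a) / 2) (fun a b hab => by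
        have h1 := hρ _ _ (adj_inl_inr (a := a) (p := (⟨s(a, b), hab⟩, 0)) (by simp))
        have h2 := hρ _ _ (adj_inr_inl (a := b) (p := (⟨s(a, b), hab⟩, 0)) (by simp))
        rw [abs_le] at h1 h2 ⊢
        constructor <;> linarith [h1.1, h1.2, h2.1, h2.2]) a b c d (t / 2) (τ / 2) (x / 2) (y / 2)
      hab hcd (half _ _ _ a1) ((half _ _ _ a3).trans (by linarith)) (half _ _ _ b1)
      ((half _ _ _ b3).trans (by linarith)) with he | ⟨φ, hφ, h1⟩
    swap
    · refine Or.inr ⟨φ, ⟨hφ.1, fun s i hs => hφ.2 s i (by omega)⟩, ?_⟩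
      simp only [map_add, map_smul, smul_eq_mul, hφ.2 _ _ l1.ge, hφ.2 _ _ l2.ge, mul_zero,
        add_zero]
      rw [← mul_sub, abs_mul, abs_two]
      rw [← sub_div, abs_div, abs_two] at h1
      linarith
    have tri : ∀ m : ℝ, |x - y| ≤ |x - m| + |y - m| := fun m => by
      rw [abs_sub_comm y]
      exact abs_sub_le x m y
    have t0 : 0 ≤ t := (abs_nonneg _).trans a1
    have τ0 : 0 ≤ τ := (abs_nonneg _).trans b1
    have t1 : t ≤ 1 := by linarith [abs_nonneg (x - ρ (.inr (⟨s(a, b), hab⟩, i)))]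
    have τ1 : τ ≤ 1 := by linarith [abs_nonneg (y - ρ (.inr (⟨s(c, d), hcd⟩, i')))]
    have gψ : ∀ n, S.Good (j + 1) (S.ψ (ν s(a, b)) n) := fun n =>
      ⟨S.ψ_le _ _, fun s i hs => S.ψ_w' _ _ _ _ fun h => by
        rw [← (Prod.mk.inj h).1] at l1
        omega⟩
    have kp : ∀ n u v r, S.ψ (ν s(a, b)) n (pt f u v r) = 0 := fun n u v r => by
      rw [pt, map_add, map_smul, map_smul, H.kill _ _ _ l1.ge, H.kill _ _ _ l1.ge]
      simp
    have c1 : i ≠ i' → |x - y| ≤ 3 * t → ∃ φ, S.Good (j + 1) φ ∧ |x - y| ≤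
        3 * |φ ((2 : ℝ) • pt f a b (t / 2) + t • S.w (ν s(a, b)) i) -
          φ ((2 : ℝ) • pt f c d (τ / 2) + τ • S.w (ν s(c, d)) i')| := fun hi hx =>
      ⟨_, gψ i, by
        simp only [map_add, map_smul, smul_eq_mul, kp, ← he]
        rw [S.ψ_w _ _ (by omega), S.ψ_w' _ _ _ _ fun h => hi (Prod.mk.inj h).2.symm]
        simpa [abs_of_nonneg t0] using hx⟩
    have c2 : i ≠ i' → |x - y| ≤ 3 * τ → ∃ φ, S.Good (j + 1) φ ∧ |x - y| ≤
        3 * |φ ((2 : ℝ) • pt f a b (t / 2) + t • S.w (ν s(a, b)) i) -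
          φ ((2 : ℝ) • pt f c d (τ / 2) + τ • S.w (ν s(c, d)) i')| := fun hi hx =>
      ⟨_, gψ i', by
        simp only [map_add, map_smul, smul_eq_mul, kp, ← he]
        rw [S.ψ_w _ _ (by omega), S.ψ_w' _ _ _ _ fun h => hi (Prod.mk.inj h).2]
        simpa [abs_of_nonneg τ0] using hx⟩
    rcases Sym2.eq_iff.1 he with ⟨rfl, rfl⟩ | ⟨rfl, rfl⟩
    · by_cases hi : i = i'
      · subst hi
        exact Or.inl rfl
      have h1 := tri (ρ (.inl a))
      rcases le_total t τ with h2 | h2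
      · exact Or.inr (c2 hi (by linarith))
      · exact Or.inr (c1 hi (by linarith))
    right
    have c3 : |x - y| ≤ 3 * (2 - t - τ) → ∃ φ, S.Good (j + 1) φ ∧ |x - y| ≤
        3 * |φ ((2 : ℝ) • pt f a b (t / 2) + t • S.w (ν s(a, b)) i) -
          φ ((2 : ℝ) • pt f b a (τ / 2) + τ • S.w (ν s(b, a)) i')| := fun hx =>
      ⟨S.γ, ⟨S.γ_le, fun s i _ => S.γ_w s i⟩, hx.trans (by
        simp only [pt, map_add, map_smul, smul_eq_mul, S.γ_w]
        refine mul_le_mul_of_nonneg_left ?_ (by norm_num)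
        rcases H.ht hab with h4 | h4
        · refine le_trans (le_of_eq ?_) (neg_le_abs _)
          linear_combination (t + τ - 2) * h4
        · refine le_trans (le_of_eq ?_) (le_abs_self _)
          linear_combination (2 - t - τ) * h4)⟩
    by_cases hi : i = i'
    · subst hi
      have e5 : (⟨s(b, a), hcd⟩ : G.edgeSet) = ⟨s(a, b), hab⟩ := Subtype.ext Sym2.eq_swap
      rw [e5] at b2
      have h1 := tri (ρ (.inr (⟨s(a, b), hab⟩, i)))
      exact c3 (by linarith)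
    have h1 := tri (ρ (.inl a))
    have h2 := tri (ρ (.inl b))
    by_cases h3 : 2 ≤ 3 * t
    · exact c1 hi (by linarith)
    by_cases h4 : 2 ≤ 3 * τ
    · exact c2 hi (by linarith)
    exact c3 (by linarith)

end step

theorem Sys.exists_inv (S : Sys W k R A) (j : ℕ) (hj : j ≤ k) :
    ∃ f ν, S.Inv j (diamond j).E f ν := by
  induction j with
  | zero => exact ⟨_, _, S.inv_zero⟩
  | succ j ih =>
    obtain ⟨f, ν, h⟩ := ih (by omega)
    exact ⟨_, _, h.succ hj⟩

theorem Sys.embed (S : Sys W k R A) : ∃ f : (diamond k).V → W, ∀ a b,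
    ((diamond k).E.dist a b : ℝ) ≤ 3 * (A * ‖f a - f b‖) ∧
      ‖f a - f b‖ ≤ R * (diamond k).E.dist a b := by
  obtain ⟨f, ν, H⟩ := S.exists_inv k le_rfl
  have hc := preconnected_diamond k
  refine ⟨f, fun a b => ⟨?_, ?_⟩⟩
  · by_cases hab : a = b
    · subst hab
      simp
    have nb : ∀ a b : (diamond k).V, a ≠ b → ∃ c, (diamond k).E.Adj a c := fun a b h => by
      obtain ⟨p⟩ := hc a b
      cases p with
      | nil => exact absurd rfl h
      | cons h _ => exact ⟨_, h⟩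
    obtain ⟨c, hac⟩ := nb a b hab
    obtain ⟨d, hbd⟩ := nb b a (Ne.symm hab)
    have hρ : ∀ u v, (diamond k).E.Adj u v →
        |((diamond k).E.dist u b : ℝ) - (diamond k).E.dist v b| ≤ 1 := fun u v h => by
      have h1 : ((diamond k).E.dist u b : ℝ) ≤ 1 + (diamond k).E.dist v b := by
        exact_mod_cast dist_le_of_mem (b := b) hc (e := s(u, v)) h (by simp) (by simp)
      have h2 : ((diamond k).E.dist v b : ℝ) ≤ 1 + (diamond k).E.dist u b := by
        exact_mod_cast dist_le_of_mem (b := b) hc (e := s(u, v)) h (by simp) (by simp)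
      rw [abs_le]
      constructor <;> linarith
    rcases H.low _ hρ a c b d 0 0 _ _ hac hbd (by rw [sub_self, abs_zero])
      (by rw [sub_zero]; exact hρ a c hac) (by rw [sub_self, abs_zero])
      (by rw [sub_zero]; exact hρ b d hbd) with he | ⟨φ, hφ, h1⟩
    · rcases Sym2.eq_iff.1 he with ⟨h1, -⟩ | ⟨-, rfl⟩
      · exact absurd h1 hab
      have h2 := S.γ_le (f a - f c)
      rw [map_sub] at h2
      rw [SimpleGraph.dist_eq_one_iff_adj.2 hac]
      rcases H.ht hac with h4 | h4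
      · rw [abs_sub_comm, h4] at h2
        norm_num at h2 ⊢
        linarith
      · rw [abs_sub_comm, h4] at h2
        norm_num at h2 ⊢
        linarith
    · have h2 := hφ.1 (f a - f b)
      rw [map_sub] at h2
      simp only [pt, SimpleGraph.dist_self, sub_zero, one_smul, zero_smul, add_zero,
        Nat.cast_zero, Nat.abs_cast] at h1
      linarith
  · obtain ⟨p, hp⟩ := (hc a b).exists_walk_length_eq_dist
    rw [← hp]
    clear hp
    induction p with
    | nil => simp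
    | @cons u v w h p ih =>
      have h1 : ‖f u - f v‖ ≤ R := by
        have h2 := S.z_le _ (H.len u v h).le
        rcases H.zz u v h with e | e
        · rwa [norm_sub_rev, e]
        · rwa [e]
      have h2 := norm_sub_le_norm_sub_add_norm_sub (f u) (f v) (f w)
      rw [SimpleGraph.Walk.length_cons]
      push_cast
      linarith

end Vale.Agent.N069Q
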