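import Vale.Agent.N069Q.Basic

/-! P069: the asymptotic game in the dual space. -/

namespace Vale.Agent.N069Q

universe u

variable {X : Type u} [NormedAddCommGroup X] [NormedSpace ℝ X]

/-- In `n` rounds, against any finite sets to be annihilated, the second player can choose
functionals of norm at most `a` whose sum has the property `P`. -/
def Win (a : ℝ) : ℕ → (StrongDual ℝ X → Prop) → Prop
  | 0, P => P 0
  | n + 1, P => ∀ E : Finset X, ∃ h, Ann E h ∧ ‖h‖ ≤ a ∧ Win a n fun g => P (h + g)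

theorem Win.mono {a : ℝ} {n : ℕ} : ∀ {P Q : StrongDual ℝ X → Prop},
    Win a n P → (∀ g, P g → Q g) → Win a n Q := by
  induction n with
  | zero => exact fun h k => k 0 h
  | succ n ih =>
    intro P Q h k E
    obtain ⟨g, h1, h2, h3⟩ := h E
    exact ⟨g, h1, h2, ih h3 fun _ => k _⟩

theorem Win.or {a : ℝ} {n : ℕ} : ∀ {P Q : StrongDual ℝ X → Prop},
    Win a n (fun g => P g ∨ Q g) → Win a n P ∨ Win a n Q := by
  classical
  induction n with
  | zero => exact fun h => h
  | succ n ih =>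
    intro P Q h
    by_contra hc
    obtain ⟨h1, h2⟩ := not_or.1 hc
    obtain ⟨E1, h1⟩ := not_forall.1 h1
    obtain ⟨E2, h2⟩ := not_forall.1 h2
    obtain ⟨g, k1, k2, k3⟩ := h (E1 ∪ E2)
    rcases ih k3 with k | k
    · exact h1 ⟨g, fun x hx => k1 x (Finset.mem_union_left _ hx), k2, k⟩
    · exact h2 ⟨g, fun x hx => k1 x (Finset.mem_union_right _ hx), k2, k⟩

theorem Win.restrict {a : ℝ} {n : ℕ} (E : Finset X) : ∀ {P : StrongDual ℝ X → Prop},
    Win a n P → Win a n fun g => P g ∧ Ann E g ∧ ‖g‖ ≤ n * a := by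
  classical
  induction n with
  | zero => exact fun h => ⟨h, fun _ _ => rfl, by simp⟩
  | succ n ih =>
    intro P h E'
    obtain ⟨g, k1, k2, k3⟩ := h (E ∪ E')
    refine ⟨g, fun x hx => k1 x (Finset.mem_union_right _ hx), k2, (ih k3).mono ?_⟩
    rintro g' ⟨m1, m2, m3⟩
    refine ⟨m1, fun x hx => ?_, ?_⟩
    · rw [add_apply, k1 x (Finset.mem_union_left _ hx), m2 x hx, add_zero]
    · push_cast
      linarith [norm_add_le g g']

theorem Win.exists {a : ℝ} {n : ℕ} : ∀ {P : StrongDual ℝ X → Prop}, Win a n P → ∃ g, P g := by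
  induction n with
  | zero => exact fun h => ⟨0, h⟩
  | succ n ih =>
    intro P h
    obtain ⟨g, -, -, k⟩ := h ∅
    obtain ⟨g', k⟩ := ih k
    exact ⟨_, k⟩

theorem Win.add {a : ℝ} {n m : ℕ} : ∀ {P : StrongDual ℝ X → Prop},
    Win a (m + n) P → Win a n fun h => Win a m fun g => P (h + g) := by
  induction n with
  | zero =>
    intro P h
    exact Win.mono (n := m) h fun g k => by rwa [zero_add]
  | succ n ih =>
    intro P h E
    obtain ⟨g, k1, k2, k3⟩ := h E
    exact ⟨g, k1, k2, (ih k3).mono fun _ k => k.mono fun _ k => by rwa [add_assoc]⟩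

theorem Win.scale {a : ℝ} (ha : 0 < a) {n : ℕ} : ∀ {P : StrongDual ℝ X → Prop},
    Win a n P → Win 1 n fun g => P (a • g) := by
  induction n with
  | zero =>
    intro P h
    change P (a • 0)
    rwa [smul_zero]
  | succ n ih =>
    intro P h E
    obtain ⟨g, k1, k2, k3⟩ := h E
    refine ⟨a⁻¹ • g, fun x hx => by simp [k1 x hx], ?_, (ih k3).mono fun g' k => ?_⟩
    · rw [norm_smul, norm_inv, Real.norm_of_nonneg ha.le, ← div_eq_inv_mul, div_le_one ha]
      exact k2
    · change P (a • (a⁻¹ • g + g'))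
      rwa [smul_add, smul_smul, mul_inv_cancel₀ ha.ne', one_smul]

theorem Win.block {a b : ℝ} {n : ℕ} (H : ¬ Win a n fun g : StrongDual ℝ X => b < ‖g‖) {m : ℕ} :
    ∀ {P : StrongDual ℝ X → Prop}, Win a (n * m) P → Win b m P := by
  induction m with
  | zero => exact fun h => h
  | succ m ih =>
    intro P h E
    have h1 := (Win.add (m := n * m) (n := n) h).restrict E
    have h2 := Win.or (P := fun g => b < ‖g‖)
      (Q := fun g => Ann E g ∧ ‖g‖ ≤ b ∧ Win b m fun g' => P (g + g')) (h1.mono fun g k => by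
        rcases lt_or_ge b ‖g‖ with l | l
        · exact Or.inl l
        · exact Or.inr ⟨k.2.1, l, ih k.1⟩)
    exact (h2.resolve_left H).exists

theorem not_win_pow {b : ℝ} (hb : 0 < b) {n : ℕ}
    (H : ¬ Win 1 n fun g : StrongDual ℝ X => b < ‖g‖) (k : ℕ) :
    ¬ Win 1 (n ^ k) fun g : StrongDual ℝ X => b ^ k < ‖g‖ := by
  induction k with
  | zero =>
    intro h
    obtain ⟨g, k1, -, k2⟩ := (h.restrict ∅).exists
    simp only [pow_zero, Nat.cast_one, mul_one] at k1 k2
    linarith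
  | succ k ih =>
    intro h
    rw [pow_succ] at h
    refine H (((Win.block ih h).scale (pow_pos hb k)).mono fun g hg => ?_)
    rw [norm_smul, Real.norm_of_nonneg (pow_pos hb k).le, pow_succ] at hg
    exact lt_of_mul_lt_mul_left hg (pow_pos hb k).le

/-- One loss makes the growth sublinear. -/
theorem not_win_small {η : ℝ} (hη : 0 < η) (hη1 : η < 1) {n : ℕ}
    (H : ¬ Win 1 n fun g : StrongDual ℝ X => n - η < ‖g‖) {κ : ℝ} (hκ : 0 < κ) :
    ∃ m : ℕ, 1 ≤ m ∧ ¬ Win 1 m fun g : StrongDual ℝ X => κ * m < ‖g‖ := by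
  have hn : 1 ≤ n := by
    rcases n with _ | n
    · exact absurd (by change ((0 : ℕ) : ℝ) - η < ‖(0 : StrongDual ℝ X)‖; simpa using hη) H
    · omega
  have hn' : (1 : ℝ) ≤ n := by exact_mod_cast hn
  have hb : 0 < n - η := by linarith
  obtain ⟨k, hk⟩ := exists_pow_lt_of_lt_one hκ
    (show (n - η) / n < 1 by rw [div_lt_one (by linarith)]; linarith)
  refine ⟨n ^ k, Nat.one_le_pow _ _ hn, fun h => not_win_pow hb H k (h.mono fun g hg => ?_)⟩
  rw [div_pow, div_lt_iff₀ (by positivity)] at hk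
  push_cast at hg
  linarith

/-- The set of functionals which defines one of the norms. -/
theorem exists_set {κ : ℝ} (hκ : 0 < κ) {m : ℕ} (hm : 1 ≤ m)
    (H : ¬ Win 1 m fun g : StrongDual ℝ X => κ * m < ‖g‖) :
    ∃ C : Set (StrongDual ℝ X), (∀ f, ‖f‖ ≤ m → f ∈ C) ∧ (∀ f ∈ C, ‖f‖ ≤ 2 * m) ∧
      ∀ f ∈ C, ∃ E, ∀ h, Ann E h → ‖h‖ ≤ 1 → ((m : ℝ) / (m + κ)) • (f + h) ∈ C := by
  classical
  have hm' : (1 : ℝ) ≤ m := by exact_mod_cast hm
  have hC : ∀ f : StrongDual ℝ X,
      (∀ j < m, ¬ Win 1 j fun g => 2 * m + κ * j < ‖f + g‖) → ‖f‖ ≤ 2 * m := fun f hf => by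
    have := hf 0 hm
    simp only [Win, add_zero, Nat.cast_zero, mul_zero, not_lt] at this
    exact this
  refine ⟨{f | ∀ j < m, ¬ Win 1 j fun g => 2 * m + κ * j < ‖f + g‖}, fun f hf j hj h => ?_,
    hC, fun f hf => ?_⟩
  · obtain ⟨g, k1, -, k2⟩ := (h.restrict ∅).exists
    have : (j : ℝ) ≤ m := by exact_mod_cast hj.le
    have : 0 ≤ κ * j := by positivity
    linarith [norm_add_le f g]
  have h1 : ∀ j, ∃ E : Finset X, j < m → ∀ h, Ann E h → ‖h‖ ≤ 1 →
      ¬ Win 1 j fun g => 2 * m + κ * (j + 1 : ℕ) < ‖f + (h + g)‖ := by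
    intro j
    by_cases hj : j < m
    · have h2 : ¬ Win 1 (j + 1) fun g => 2 * m + κ * (j + 1 : ℕ) < ‖f + g‖ := by
        rcases lt_or_eq_of_le (Nat.succ_le_of_lt hj) with l | l
        · exact hf _ l
        · intro h
          have l' : j + 1 = m := l
          rw [l'] at h
          exact H (h.mono fun g hg => by linarith [norm_add_le f g, hC f hf])
      obtain ⟨E, hE⟩ := not_forall.1 h2
      exact ⟨E, fun _ h a b c => hE ⟨h, a, b, c⟩⟩
    · exact ⟨∅, fun h => absurd h hj⟩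
  choose E hE using h1
  refine ⟨(Finset.range m).biUnion E, fun h ha hn j hj hw => ?_⟩
  refine hE j hj h (fun x hx => ha x (Finset.mem_biUnion.2 ⟨j, Finset.mem_range.2 hj, hx⟩)) hn
    ((hw.restrict ∅).mono ?_)
  rintro g ⟨k1, -, k2⟩
  obtain ⟨l, hl⟩ : ∃ l : ℝ, l = (m : ℝ) / (m + κ) := ⟨_, rfl⟩
  rw [← hl] at k1
  have l0 : 0 < l := by rw [hl]; positivity
  have l2 : l * (m + κ) = m := by rw [hl]; field_simp
  have l1 : l ≤ 1 := by nlinarith
  have e : l • (f + h) + g = l • (f + (h + g)) + (1 - l) • g := by module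
  have k3 := norm_add_le (l • (f + (h + g))) ((1 - l) • g)
  rw [← e, norm_smul, norm_smul, Real.norm_of_nonneg l0.le,
    Real.norm_of_nonneg (by linarith : 0 ≤ 1 - l)] at k3
  have k4 : (j : ℝ) ≤ m := by exact_mod_cast hj.le
  have k5 : (1 - l) * ‖g‖ ≤ (1 - l) * m := mul_le_mul_of_nonneg_left (by linarith) (by linarith)
  have k6 : l * (κ * j) ≤ κ * j := mul_le_of_le_one_left (by positivity) l1
  by_contra hc
  push_cast at hc
  have k7 := mul_le_mul_of_nonneg_left (not_lt.1 hc) l0.le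
  nlinarith

end Vale.Agent.N069Q
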