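import Vale.Agent.N069Q.Select
import Vale.Agent.P069.Bdl.B1

/-! P069: the characterisation of AUC renormability by quotients, and the counterexample. -/

namespace Vale.Agent.N069Q

open Vale.Agent.P069 Vale.Agent.P069.H778

universe u

variable {X Y : Type u} [NormedAddCommGroup X] [NormedSpace ℝ X] [NormedAddCommGroup Y]
  [NormedSpace ℝ Y]

theorem Diamonds.map (e : X ≃L[ℝ] Y) {D : ℝ} (h : Diamonds X D) : ∃ D', Diamonds Y D' := by
  obtain ⟨C, hC, b1⟩ := e.toContinuousLinearMap.bound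
  obtain ⟨B, hB, b2⟩ := e.symm.toContinuousLinearMap.bound
  refine ⟨C * D * B, fun k => ?_⟩
  obtain ⟨f, s, hs, hf⟩ := h k
  refine ⟨fun a => e (f a), s / B, by positivity, fun a b => ?_⟩
  have h1 := b1 (f a - f b)
  have h2 := b2 (e (f a - f b))
  simp only [ContinuousLinearEquiv.coe_coe, ContinuousLinearEquiv.symm_apply_apply] at h1 h2
  rw [← map_sub]
  constructor
  · rw [div_mul_eq_mul_div, div_le_iff₀' hB]
    exact (hf a b).1.trans h2
  · refine h1.trans ((mul_le_mul_of_nonneg_left (hf a b).2 hC.le).trans (le_of_eq ?_))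
    field_simp

theorem AMUC.not_diamonds (h : AMUC X) (D : ℝ) : ¬ Diamonds X D := by
  intro hD
  obtain ⟨δ, hδ, st⟩ := (amuc_iff.1 h).step (Or.inl rfl) (κ := 1 / 2) (R := max D 1)
    (by norm_num) (lt_max_of_lt_right one_pos)
  have key : ∀ (k : ℕ) (f : (diamond k).V → X) (M : ℝ), M ≤ max D 1 →
      (∀ a b, ((diamond k).E.dist a b : ℝ) ≤ ‖f a - f b‖) →
      (∀ a b, (diamond k).E.Adj a b → ‖f a - f b‖ ≤ M) → k * (δ / 2) ≤ M := by
    intro k
    induction k with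
    | zero =>
      intro f M _ _ h2
      obtain ⟨a, b, hab⟩ := exists_adj_diamond 0
      simpa using (norm_nonneg _).trans (h2 a b hab)
    | succ k ih =>
      intro f M hM h1 h2
      have hc := preconnected_diamond k
      have half : ∀ v : X, ‖(1 / 2 : ℝ) • v‖ = ‖v‖ / 2 := fun v => by
        rw [norm_smul, Real.norm_of_nonneg (by norm_num)]
        ring
      have := ih (fun a => (1 / 2 : ℝ) • f (.inl a)) (M - δ / 2) (by linarith) (fun a b => by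
        have e1 := h1 (.inl a) (.inl b)
        have e2 : (2 * (diamond k).E.dist a b : ℝ) ≤
            ((diamond (k + 1)).E.dist (.inl a) (.inl b) : ℝ) := by
          exact_mod_cast two_mul_dist_le hc a b
        rw [← smul_sub, half]
        linarith) fun a b hab => ?_
      · push_cast
        linarith
      rw [← smul_sub]
      obtain ⟨m, hm⟩ : ∃ m : ℕ → X, ∀ i, m i = f (.inr (⟨s(a, b), hab⟩, i)) := ⟨_, fun _ => rfl⟩
      have g1 : ∀ i, ‖f (.inl a) - m i‖ ≤ M := fun i => hm i ▸ h2 _ _ (adj_inl_inr (by simp))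
      have g2 : ∀ i, ‖m i - f (.inl b)‖ ≤ M := fun i => hm i ▸ h2 _ _ (adj_inr_inl (by simp))
      have g3 : ∀ i j, ‖(1 / 2 : ℝ) • (f (.inl a) - f (.inl b)) +
          ((1 / 2 : ℝ) • m i - (1 / 2 : ℝ) • m j)‖ ≤ M := fun i j => by
        have e : (1 / 2 : ℝ) • (f (.inl a) - f (.inl b)) + ((1 / 2 : ℝ) • m i - (1 / 2 : ℝ) • m j)
            = (1 / 2 : ℝ) • ((f (.inl a) - m j) + (m i - f (.inl b))) := by module
        rw [e, half]
        linarith [norm_add_le (f (.inl a) - m j) (m i - f (.inl b)), g1 j, g2 i]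
      obtain ⟨Φ, hΦ⟩ := st ((1 / 2 : ℝ) • (f (.inl a) - f (.inl b)))
        (le_trans (by simpa using g3 0 0) hM)
      obtain ⟨i, j, hij, z, z1, z2⟩ := near_pair Φ (y := fun i => (1 / 2 : ℝ) • m i)
        (R := (‖f (.inl a)‖ + M) / 2) (ε := min (1 / 2) (δ / 2)) (fun i => by
          have := norm_sub_le (f (.inl a)) (f (.inl a) - m i)
          rw [sub_sub_cancel] at this
          rw [half]
          linarith [g1 i]) (lt_min (by norm_num) (by linarith))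
      have z3 := (lt_min_iff.1 z2).1
      have z4 := (lt_min_iff.1 z2).2
      have g4 : 1 ≤ ‖(1 / 2 : ℝ) • m i - (1 / 2 : ℝ) • m j‖ := by
        have e1 := h1 (.inr (⟨s(a, b), hab⟩, i)) (.inr (⟨s(a, b), hab⟩, j))
        have e2 : (2 : ℝ) ≤ ((diamond (k + 1)).E.dist (.inr (⟨s(a, b), hab⟩, i))
            (.inr (⟨s(a, b), hab⟩, j)) : ℝ) := by
          exact_mod_cast two_le_dist hc ⟨s(a, b), hab⟩ hij
        rw [← smul_sub, half, hm, hm]
        linarith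
      obtain ⟨σ, hσ, h3⟩ := hΦ z z1 (by
        linarith [norm_sub_norm_le ((1 / 2 : ℝ) • m i - (1 / 2 : ℝ) • m j) z,
          norm_le_norm_sub_add ((1 / 2 : ℝ) • m i - (1 / 2 : ℝ) • m j) z])
      rcases hσ with rfl | rfl
      · have e : (1 / 2 : ℝ) • (f (.inl a) - f (.inl b)) + (1 : ℝ) • z =
            (1 / 2 : ℝ) • (f (.inl a) - f (.inl b)) + ((1 / 2 : ℝ) • m i - (1 / 2 : ℝ) • m j) -
              ((1 / 2 : ℝ) • m i - (1 / 2 : ℝ) • m j - z) := by module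
        rw [e] at h3
        linarith [h3.trans (norm_sub_le _ _), g3 i j]
      · have e : (1 / 2 : ℝ) • (f (.inl a) - f (.inl b)) + (-1 : ℝ) • z =
            (1 / 2 : ℝ) • (f (.inl a) - f (.inl b)) + ((1 / 2 : ℝ) • m j - (1 / 2 : ℝ) • m i) +
              ((1 / 2 : ℝ) • m i - (1 / 2 : ℝ) • m j - z) := by module
        rw [e] at h3
        linarith [h3.trans (norm_add_le _ _), g3 j i]
  obtain ⟨k, hk⟩ := exists_nat_gt (D / (δ / 2))
  obtain ⟨f, s, hs, hf⟩ := hD k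
  have sc : ∀ a b, ‖s⁻¹ • f a - s⁻¹ • f b‖ = ‖f a - f b‖ / s := fun a b => by
    rw [← smul_sub, norm_smul, norm_inv, Real.norm_of_nonneg hs.le, div_eq_inv_mul]
  have := key k (fun a => s⁻¹ • f a) D (le_max_left _ _) (fun a b => by
    rw [sc, le_div_iff₀' hs]
    exact (hf a b).1) fun a b hab => by
    have h1 := (hf a b).2
    rw [SimpleGraph.dist_eq_one_iff_adj.2 hab, Nat.cast_one, mul_one] at h1
    rwa [sc, div_le_iff₀ hs]
  rw [div_lt_iff₀ (by linarith)] at hk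
  linarith

theorem AMUCable.not_diamonds (h : AMUCable X) : ¬ ∃ D, Diamonds X D := by
  rintro ⟨D, hD⟩
  obtain ⟨Y, _, _, ⟨e⟩, hY⟩ := h
  obtain ⟨D', h'⟩ := hD.map e
  exact hY.not_diamonds D' h'

theorem bridge (e : X ≃L[ℝ] Y) {N : Seminorm ℝ X} (he : ∀ x, ‖e x‖ = N x) (g : Y → Y → ℝ) :
    (0 < ⨅ x : {x : X // N x = 1}, ⨆ F : {F : Submodule ℝ X // IsCofinite F},
      ⨅ y : {y : X // y ∈ F.1 ∧ N y = 1}, ((g (e x.1) (e y.1) - 1 : ℝ) : EReal)) ↔
    0 < ⨅ x ∈ Metric.sphere (0 : Y) 1, ⨆ F ∈ cof Y, ⨅ y ∈ (F : Set Y) ∩ Metric.sphere 0 1,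
      ((g x y - 1 : ℝ) : EReal) := by
  classical
  constructor
  · intro h
    obtain ⟨d, hd1, hd2⟩ := EReal.lt_iff_exists_real_btwn.1 h
    refine fold_pos (δ := d) (by exact_mod_cast hd1) fun x hx => ?_
    obtain ⟨x, rfl⟩ := e.surjective x
    obtain ⟨F, hF⟩ := lt_iSup_iff.1 (hd2.trans_le (iInf_le _ ⟨x, he x ▸ hx⟩))
    obtain ⟨Φ, hΦ⟩ := exists_ker (F := F.1) F.2
    refine ⟨Φ.image fun φ => φ.comp e.symm.toContinuousLinearMap, fun y hy hy1 => ?_⟩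
    obtain ⟨y, rfl⟩ := e.surjective y
    have h2 := hF.trans_le (iInf_le _ ⟨y, hΦ y fun φ hφ => by
      simpa using hy _ (Finset.mem_image_of_mem _ hφ), he y ▸ hy1⟩)
    have h3 : d < g (e x) (e y) - 1 := by exact_mod_cast h2
    linarith
  · intro h
    obtain ⟨δ, hδ, h⟩ := unfold_pos h
    refine lt_of_lt_of_le (b := (δ : EReal)) (by exact_mod_cast hδ) (le_iInf fun x => ?_)
    obtain ⟨Φ, hΦ⟩ := h (e x.1) ((he _).trans x.2)
    obtain ⟨F, hF, hK⟩ := exists_cof (Φ.image fun φ => φ.comp e.toContinuousLinearMap)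
    refine le_iSup_of_le ⟨F, hF⟩ (le_iInf fun y => ?_)
    have h1 := hΦ (e y.1) (fun φ hφ => hK _ y.2.1 _ (Finset.mem_image_of_mem _ hφ))
      ((he _).trans y.2.2)
    have h2 : δ ≤ g (e x.1) (e y.1) - 1 := by linarith
    exact_mod_cast h2

theorem isAUC_iff (e : X ≃L[ℝ] Y) {N : Seminorm ℝ X} (he : ∀ x, ‖e x‖ = N x) :
    IsAUC N ↔ AUC Y := by
  refine forall₂_congr fun t _ => Iff.trans ?_ (bridge e he fun x y => ‖x + t • y‖)
  simp only [aucModulus, ← he, map_add, map_smul]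

theorem isAMUC_iff (e : X ≃L[ℝ] Y) {N : Seminorm ℝ X} (he : ∀ x, ‖e x‖ = N x) :
    IsAMUC N ↔ AMUC Y := by
  refine forall₂_congr fun t _ => Iff.trans ?_
    (bridge e he fun x y => max ‖x + t • y‖ ‖x - t • y‖)
  simp only [amucModulus, ← he, map_add, map_sub, map_smul]

theorem exists_equivNorm (e : X ≃L[ℝ] Y) :
    ∃ N : Seminorm ℝ X, IsEquivNorm N ∧ ∀ x, ‖e x‖ = N x := by
  obtain ⟨C, hC, b1⟩ := e.toContinuousLinearMap.bound
  obtain ⟨B, hB, b2⟩ := e.symm.toContinuousLinearMap.bound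
  refine ⟨(normSeminorm ℝ Y).comp e.toLinearEquiv.toLinearMap,
    ⟨B⁻¹, C, inv_pos.2 hB, hC, fun x => ⟨?_, b1 x⟩⟩, fun x => rfl⟩
  have h2 := b2 (e x)
  simp only [ContinuousLinearEquiv.coe_coe, ContinuousLinearEquiv.symm_apply_apply] at h2
  rw [← div_eq_inv_mul, div_le_iff₀' hB]
  exact h2

theorem AUCable.renormable (h : AUCable X) : AUCRenormable X := by
  obtain ⟨Y, _, _, ⟨e⟩, h⟩ := h
  obtain ⟨N, h1, he⟩ := exists_equivNorm e
  exact ⟨N, h1, (isAUC_iff e he).2 h⟩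

theorem tfae (hX : Reflexive X) {D₀ : ℝ} (hD : 12 < D₀) : List.TFAE [AUCable X,
    ∀ (Y : Submodule ℝ X) [IsClosed (Y : Set X)], AUCable (X ⧸ Y),
    ∀ (Y : Submodule ℝ X) [IsClosed (Y : Set X)], AMUCable (X ⧸ Y),
    ∀ (Y : Submodule ℝ X) [IsClosed (Y : Set X)], ¬ ∃ D, Diamonds (X ⧸ Y) D,
    ∀ (Y : Submodule ℝ X) [IsClosed (Y : Set X)], ¬ Diamonds (X ⧸ Y) D₀] := by
  tfae_have 1 → 2 := fun h Y _ => h.quot hX Y
  tfae_have 2 → 3 := fun h Y _ => (h Y).amuc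
  tfae_have 3 → 4 := fun h Y _ => (h Y).not_diamonds
  tfae_have 4 → 5 := fun h Y _ hY => h Y ⟨_, hY⟩
  tfae_have 5 → 1 := fun h => by
    by_contra hc
    obtain ⟨Y, _, hY⟩ := exists_quot_diamonds hX hc hD
    exact h Y hY
  tfae_finish

theorem exists_example : ∃ (Z : Type) (_ : NormedAddCommGroup Z) (_ : NormedSpace ℝ Z),
    CompleteSpace Z ∧ TopologicalSpace.SeparableSpace Z ∧ ¬ FiniteDimensional ℝ Z ∧
      Reflexive Z ∧ AMUC Z ∧ ¬ AUCable Z := by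
  obtain ⟨Z, _, _, h1, h2, h3, h4, h5, -, h6⟩ := assemble XX (c := 1 / 16) (κ := 1 / 2)
    (by norm_num) (by norm_num) (by norm_num) isReflexive_XX dense_twoAMUC_XX goodTree_XX
  exact ⟨Z, _, _, h1, h2, h3, h4,
    (isAMUC_iff (ContinuousLinearEquiv.refl ℝ Z) fun _ => rfl).1 h5, fun h => h6 h.renormable⟩

theorem main :
    (¬ ∀ (X : Type) [NormedAddCommGroup X] [NormedSpace ℝ X] [CompleteSpace X],
      ¬ FiniteDimensional ℝ X → Reflexive X → AMUCable X → AUCable X) ∧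
    (∀ (X : Type) [NormedAddCommGroup X] [NormedSpace ℝ X] [CompleteSpace X], Reflexive X →
      ∀ D₀ : ℝ, 12 < D₀ → List.TFAE [AUCable X,
        ∀ (Y : Submodule ℝ X) [IsClosed (Y : Set X)], AUCable (X ⧸ Y),
        ∀ (Y : Submodule ℝ X) [IsClosed (Y : Set X)], AMUCable (X ⧸ Y),
        ∀ (Y : Submodule ℝ X) [IsClosed (Y : Set X)], ¬ ∃ D, Diamonds (X ⧸ Y) D,
        ∀ (Y : Submodule ℝ X) [IsClosed (Y : Set X)], ¬ Diamonds (X ⧸ Y) D₀]) ∧
    ∃ (Z : Type) (_ : NormedAddCommGroup Z) (_ : NormedSpace ℝ Z),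
      CompleteSpace Z ∧ TopologicalSpace.SeparableSpace Z ∧ ¬ FiniteDimensional ℝ Z ∧
      Reflexive Z ∧ AMUC Z ∧ (¬ ∃ D, Diamonds Z D) ∧
      ∃ (Y : Submodule ℝ Z) (_ : IsClosed (Y : Set Z)),
        Diamonds (Z ⧸ Y) 13 ∧ ¬ AMUCable (Z ⧸ Y) := by
  obtain ⟨Z, _, _, h1, h2, h3, h4, h5, h6⟩ := exists_example
  have h7 : AMUCable Z := ⟨Z, _, _, ⟨ContinuousLinearEquiv.refl ℝ Z⟩, h5⟩
  refine ⟨fun h => h6 (h Z h3 h4 h7), fun X _ _ _ hX D₀ hD => tfae hX hD,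
    Z, _, _, h1, h2, h3, h4, h5, h7.not_diamonds, ?_⟩
  obtain ⟨Y, _, hY⟩ := exists_quot_diamonds h4 h6 (D := 13) (by norm_num)
  exact ⟨Y, _, hY, fun h => h.not_diamonds ⟨_, hY⟩⟩

end Vale.Agent.N069Q
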