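import Vale.Agent.N069Q.Game

/-! P069: if the second player loses one game, the space has an equivalent AUC norm. -/

namespace Vale.Agent.N069Q

open Finset

universe u

variable {X : Type u} [NormedAddCommGroup X] [NormedSpace ℝ X]

theorem exists_piece {κ : ℝ} (hκ : 0 < κ) (hκ1 : κ ≤ 1) {m : ℕ} (hm : 1 ≤ m)
    (H : ¬ Win 1 m fun g : StrongDual ℝ X => κ * m < ‖g‖) :
    ∃ p : Seminorm ℝ X, (∀ x, ‖x‖ ≤ p x ∧ p x ≤ 2 * ‖x‖) ∧
      (∀ x, ∀ η : ℝ, 0 < η → ∃ Φ, ∀ y, Ker Φ y → p x - η ≤ p (x + y)) ∧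
      ∀ x, ‖x‖ ≤ 1 → ∃ Φ, ∀ y, Ker Φ y → 24 * κ ≤ ‖y‖ → p x + κ / m ≤ p (x + y) := by
  classical
  obtain ⟨C, c1, c2, c3⟩ := exists_set hκ hm H
  have hm' : (1 : ℝ) ≤ m := by exact_mod_cast hm
  have hm0 : (0 : ℝ) < m := by linarith
  let q : X → ℝ := fun x => sSup ((fun f : StrongDual ℝ X => |f x| / m) '' C)
  have hb : ∀ x, ∀ f ∈ C, |f x| / m ≤ 2 * ‖x‖ := fun x f hf => by
    rw [div_le_iff₀ hm0]
    have := mul_le_mul_of_nonneg_right (c2 f hf) (norm_nonneg x)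
    have h2 : |f x| ≤ ‖f‖ * ‖x‖ := f.le_opNorm x
    linarith
  have h0 : (0 : StrongDual ℝ X) ∈ C := c1 0 (by simp)
  have hle : ∀ x, ∀ f ∈ C, |f x| / m ≤ q x := fun x f hf =>
    le_csSup ⟨2 * ‖x‖, by rintro _ ⟨g, hg, rfl⟩; exact hb x g hg⟩ ⟨f, hf, rfl⟩
  have hge : ∀ x b, (∀ f ∈ C, |f x| / m ≤ b) → q x ≤ b := fun x b h =>
    csSup_le ⟨_, 0, h0, rfl⟩ (by rintro _ ⟨g, hg, rfl⟩; exact h g hg)
  have hnear : ∀ x, ∀ η : ℝ, 0 < η → ∃ f ∈ C, q x - η < |f x| / m := fun x η hη => by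
    by_contra hc
    push Not at hc
    linarith [hge x _ hc]
  have hq0 : ∀ x, 0 ≤ q x := fun x => by simpa using hle x 0 h0
  refine ⟨Seminorm.ofSMulLE q ?_ (fun x y => ?_) fun a x => ?_, fun x => ⟨?_, ?_⟩,
    fun x η hη => ?_, fun x hx => ?_⟩
  · exact le_antisymm (hge 0 0 fun f _ => by simp) (hq0 0)
  · refine hge _ _ fun f hf => ?_
    have h1 := div_le_div_of_nonneg_right (abs_add_le (f x) (f y)) hm0.le
    rw [add_div] at h1
    rw [map_add]
    linarith [hle x f hf, hle y f hf]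
  · refine hge _ _ fun f hf => ?_
    rw [map_smul, smul_eq_mul, abs_mul, mul_div_assoc]
    exact mul_le_mul_of_nonneg_left (hle x f hf) (abs_nonneg a)
  · obtain ⟨g, hg1, hg2⟩ := exists_dual_vector'' ℝ x
    have h1 := hle x ((m : ℝ) • g) (c1 _ (by
      rw [norm_smul, Real.norm_of_nonneg hm0.le]
      exact mul_le_of_le_one_right hm0.le hg1))
    simp only [RCLike.ofReal_real_eq_id, id_eq] at hg2
    rw [smul_apply, hg2, smul_eq_mul, abs_of_nonneg (by positivity),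
      mul_div_cancel_left₀ _ hm0.ne'] at h1
    exact h1
  · exact hge _ _ (hb x)
  · obtain ⟨f, hf, h1⟩ := hnear x η hη
    refine ⟨{f}, fun y hy => ?_⟩
    have h2 := hle (x + y) f hf
    rw [map_add, hy f (mem_singleton_self f), add_zero] at h2
    exact h1.le.trans h2
  · obtain ⟨f, hf, h1⟩ := hnear x (κ / m) (by positivity)
    obtain ⟨E, hE⟩ := c3 f hf
    obtain ⟨Φ, hΦ⟩ := mazur (insert x E)
    refine ⟨insert f Φ, fun y hy hn => ?_⟩
    obtain ⟨h, k1, k2, k3⟩ := hΦ y (hy.mono (subset_insert _ _))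
    have k4 : f y = 0 := hy f (mem_insert_self _ _)
    have k5 : h x = 0 := k1 x (mem_insert_self _ _)
    have k6 : Ann E h := fun z hz => k1 z (mem_insert_of_mem hz)
    obtain ⟨l, hl⟩ : ∃ l : ℝ, l = (m : ℝ) / (m + κ) := ⟨_, rfl⟩
    rw [← hl] at hE
    have l0 : 0 < l := by rw [hl]; positivity
    have l2 : l * (m + κ) = m := by rw [hl]; field_simp
    have l1 : l ≤ 1 := by nlinarith
    have l3 : 1 / 2 ≤ l := by nlinarith
    have k7 : l * (|f x| + h y) / m ≤ q (x + y) := by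
      rcases le_total 0 (f x) with s | s
      · refine le_trans (div_le_div_of_nonneg_right ?_ hm0.le) (hle (x + y) _ (hE h k6 k2))
        refine le_trans (le_of_eq ?_) (le_abs_self _)
        simp [k4, k5, abs_of_nonneg s]
        ring
      · refine le_trans (div_le_div_of_nonneg_right ?_ hm0.le)
          (hle (x + y) _ (hE (-h) (fun z hz => by simp [k6 z hz]) (by rwa [norm_neg])))
        refine le_trans (le_of_eq ?_) (neg_le_abs _)
        simp [k4, k5, abs_of_nonpos s]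
        ring
    change q x + κ / m ≤ q (x + y)
    refine le_trans ?_ k7
    have k8 : |f x| ≤ 2 * m := by
      have := hb x f hf
      rw [div_le_iff₀ hm0] at this
      nlinarith
    have k9 : (1 - l) * |f x| ≤ 2 * κ := by
      have : (1 - l) * |f x| ≤ (1 - l) * (2 * m) := mul_le_mul_of_nonneg_left k8 (by linarith)
      nlinarith
    have k10 : 4 * κ ≤ l * h y := by nlinarith
    have k11 : q x + κ / m ≤ (|f x| + 2 * κ) / m := by
      rw [add_div, mul_div_assoc]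
      linarith
    exact k11.trans (div_le_div_of_nonneg_right (by nlinarith) hm0.le)

/-- A copy of `X`. -/
def Syn (_ : Seminorm ℝ X) : Type u := X

theorem exists_renorm (N : Seminorm ℝ X) {c C : ℝ} (hc : 0 < c)
    (hN : ∀ x, c * ‖x‖ ≤ N x ∧ N x ≤ C * ‖x‖) :
    ∃ (Y : Type u) (_ : NormedAddCommGroup Y) (_ : NormedSpace ℝ Y) (e : X ≃L[ℝ] Y),
      ∀ x, ‖e x‖ = N x := by
  let _ : AddCommGroup (Syn N) := inferInstanceAs (AddCommGroup X)
  let _ : Module ℝ (Syn N) := inferInstanceAs (Module ℝ X)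
  let n : AddGroupNorm (Syn N) :=
    { toFun := fun x => N x
      map_zero' := map_zero N
      add_le' := map_add_le_add N
      neg' := map_neg_eq_map N
      eq_zero_of_map_eq_zero' := fun x hx => by
        have h1 := (hN x).1
        have h2 : N x = 0 := hx
        rw [h2] at h1
        have h3 : ‖(show X from x)‖ ≤ 0 := by
          by_contra h
          nlinarith [mul_pos hc (not_le.1 h)]
        exact norm_le_zero_iff.1 h3 }
  let _ : NormedAddCommGroup (Syn N) := n.toNormedAddCommGroup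
  let _ : NormedSpace ℝ (Syn N) := ⟨fun a x => (map_smul_eq_mul N a x).le⟩
  let e₀ : X ≃ₗ[ℝ] Syn N := LinearEquiv.refl ℝ X
  refine ⟨Syn N, inferInstance, inferInstance,
    e₀.toContinuousLinearEquivOfBounds C c⁻¹ (fun x => (hN x).2) fun x => ?_, fun x => rfl⟩
  rw [← div_eq_inv_mul, le_div_iff₀' hc]
  exact (hN x).1

/-- **The renorming theorem.** -/
theorem aucable_of_not_win {η : ℝ} (hη : 0 < η) (hη1 : η < 1) {n : ℕ}
    (H : ¬ Win 1 n fun g : StrongDual ℝ X => n - η < ‖g‖) : AUCable X := by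
  classical
  have hκ : ∀ j : ℕ, (0 : ℝ) < 1 / (j + 1) := fun j => by positivity
  choose m hm hH using fun j : ℕ => not_win_small hη hη1 H (hκ j)
  choose p p1 p2 p3 using fun j : ℕ => exists_piece (hκ j)
    (by rw [div_le_one (by positivity)]; linarith [(Nat.cast_nonneg j : (0 : ℝ) ≤ j)])
    (hm j) (hH j)
  have hs0 : ∀ r : ℝ, HasSum (fun j : ℕ => (1 / 2 : ℝ) ^ j * r) (2 * r) := fun r =>
    hasSum_geometric_two.mul_right r
  have hs : ∀ x, Summable fun j : ℕ => (1 / 2 : ℝ) ^ j * p j x := fun x =>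
    (hs0 (2 * ‖x‖)).summable.of_nonneg_of_le (fun j => by positivity) fun j =>
      mul_le_mul_of_nonneg_left (p1 j x).2 (by positivity)
  let N : Seminorm ℝ X := Seminorm.of (fun x => ∑' j : ℕ, (1 / 2 : ℝ) ^ j * p j x)
    (fun x y => by
      rw [← (hs x).tsum_add (hs y)]
      refine (hs _).tsum_le_tsum (fun j => ?_) ((hs x).add (hs y))
      rw [← mul_add]
      exact mul_le_mul_of_nonneg_left (map_add_le_add _ _ _) (by positivity))
    (fun a x => by
      rw [← tsum_mul_left]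
      exact tsum_congr fun j => by rw [map_smul_eq_mul]; ring)
  have hN : ∀ x, N x = ∑' j : ℕ, (1 / 2 : ℝ) ^ j * p j x := fun x => rfl
  have hN1 : ∀ x, 2 * ‖x‖ ≤ N x ∧ N x ≤ 4 * ‖x‖ := fun x =>
    ⟨hasSum_le (fun j => mul_le_mul_of_nonneg_left (p1 j x).1 (by positivity)) (hs0 _)
      (hs x).hasSum,
    (hasSum_le (fun j => mul_le_mul_of_nonneg_left (p1 j x).2 (by positivity)) (hs x).hasSum
      (hs0 _)).trans (le_of_eq (by ring))⟩
  obtain ⟨Y, _, _, e, he⟩ := exists_renorm N two_pos hN1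
  refine ⟨Y, _, _, ⟨e⟩, auc_iff.2 fun t ht => ?_⟩
  obtain ⟨i, hi⟩ := exists_nat_one_div_lt (show 0 < t / 96 by positivity)
  obtain ⟨d, hd⟩ : ∃ d : ℝ, d = (1 / 2) ^ i * (1 / (i + 1) / m i) := ⟨_, rfl⟩
  have hd0 : 0 < d := by
    have : (0 : ℝ) < m i := by exact_mod_cast hm i
    rw [hd]; positivity
  obtain ⟨J0, hJ0⟩ := exists_pow_lt_of_lt_one (show 0 < d / 16 by positivity)
    (show (1 / 2 : ℝ) < 1 by norm_num)
  obtain ⟨J, hJ1, hJ2⟩ : ∃ J, i < J ∧ (1 / 2 : ℝ) ^ J < d / 16 :=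
    ⟨J0 + (i + 1), by omega, lt_of_le_of_lt
      (pow_le_pow_of_le_one (by norm_num) (by norm_num) (by omega)) hJ0⟩
  refine ⟨d / 2, by positivity, fun x' hx' => ?_⟩
  obtain ⟨x, rfl⟩ := e.surjective x'
  rw [he] at hx'
  have hx : ‖x‖ ≤ 1 := by linarith [(hN1 x).1, norm_nonneg x]
  choose Φ hΦ using fun j => p2 j x (d / 8) (by positivity)
  obtain ⟨Ψ, hΨ⟩ := p3 i x hx
  refine ⟨(Ψ ∪ (range J).biUnion Φ).image fun φ => φ.comp e.symm.toContinuousLinearMap,
    fun y' hy' hn => ⟨1, rfl, ?_⟩⟩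
  obtain ⟨y, rfl⟩ := e.surjective y'
  rw [he] at hn
  have hy : Ker (Ψ ∪ (range J).biUnion Φ) (t • y) := Ker.smul (fun φ hφ => by
    simpa using hy' _ (mem_image_of_mem _ hφ)) t
  have hn' : 24 * (1 / (i + 1 : ℝ)) ≤ ‖t • y‖ := by
    rw [norm_smul, Real.norm_of_nonneg ht.le]
    nlinarith [(hN1 y).2]
  rw [one_smul, ← map_smul, ← map_add, he, ← hx', hN, hN]
  have a1 : ∑ j ∈ range J, (1 / 2 : ℝ) ^ j * p j (x + t • y) ≤
      ∑' j : ℕ, (1 / 2 : ℝ) ^ j * p j (x + t • y) :=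
    (hs _).sum_le_tsum _ fun j _ => by positivity
  have a2 := (hs x).sum_add_tsum_nat_add J
  have a3 : ∑' j : ℕ, (1 / 2 : ℝ) ^ (j + J) * p (j + J) x ≤ 2 * ((1 / 2) ^ J * 2) := by
    refine hasSum_le (fun j => ?_) ((summable_nat_add_iff J).2 (hs x)).hasSum (hs0 _)
    rw [pow_add, mul_assoc]
    refine mul_le_mul_of_nonneg_left (mul_le_mul_of_nonneg_left ?_ (by positivity)) (by positivity)
    linarith [(p1 (j + J) x).2]
  have a4 : ∑ j ∈ range J, (1 / 2 : ℝ) ^ j * (d / 8) ≤ 2 * (d / 8) :=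
    sum_le_hasSum _ (fun j _ => by positivity) (hs0 _)
  have a5 : ∑ j ∈ range J, ((1 / 2 : ℝ) ^ j * p j x - (1 / 2 : ℝ) ^ j * (d / 8) +
      if j = i then d else 0) ≤ ∑ j ∈ range J, (1 / 2 : ℝ) ^ j * p j (x + t • y) := by
    refine sum_le_sum fun j hj => ?_
    have hp : (0 : ℝ) < (1 / 2) ^ j := by positivity
    split_ifs with h
    · subst h
      have := mul_le_mul_of_nonneg_left (hΨ _ (hy.mono subset_union_left) hn') hp.le
      rw [mul_add, ← hd] at this
      nlinarith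
    · have := mul_le_mul_of_nonneg_left (hΦ j _ (hy.mono
        ((subset_biUnion_of_mem Φ hj).trans subset_union_right))) hp.le
      linarith
  rw [sum_add_distrib, sum_sub_distrib, sum_ite_eq', if_pos (mem_range.2 hJ1)] at a5
  linarith

end Vale.Agent.N069Q
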