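import Vale.Agent.N069Q.Tree
import Vale.Agent.N069Q.Diamond

/-! P069: a biorthogonal system indexed by trees, and the quotient containing the diamonds. -/

namespace Vale.Agent.N069Q

open Vale.Agent.P069.H778

universe u

theorem exists_rec {I α : Type*} [Nonempty α] (c : I → ℕ) (Q : I → (I → α) → α → Prop)
    (loc : ∀ i f g a, (∀ j, c j < c i → f j = g j) → Q i f a → Q i g a) :
    ∃ f : I → α, ∀ i, (∃ a, Q i f a) → Q i f (f i) := by
  classical
  have wf : WellFounded fun j i => c j < c i := InvImage.wf c wellFounded_lt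
  let F : ∀ i, (∀ j, c j < c i → α) → α := fun i p =>
    Classical.epsilon (Q i fun j => if h : c j < c i then p j h else Classical.arbitrary α)
  refine ⟨wf.fix F, fun i ⟨a, ha⟩ => ?_⟩
  have h1 : ∀ j, c j < c i → wf.fix F j =
      (fun j => if _ : c j < c i then wf.fix F j else Classical.arbitrary α) j :=
    fun j h => by simp only [dif_pos h]
  refine loc i _ _ _ (fun j h => (h1 j h).symm) ?_
  rw [wf.fix_eq F i]
  exact Classical.epsilon_spec ⟨a, loc i _ _ _ h1 ha⟩

variable {X : Type u} [NormedAddCommGroup X] [NormedSpace ℝ X]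

/-- The nodes of a sequence of trees. -/
abbrev Node : Type := ℕ × List (ℕ × Bool)

theorem encode_lt (k : ℕ) (a : ℕ × Bool) (s : List (ℕ × Bool)) :
    Encodable.encode ((k, s) : Node) < Encodable.encode ((k, a :: s) : Node) := by
  rw [Encodable.encode_prod_val, Encodable.encode_prod_val, Encodable.encode_list_cons]
  exact Nat.pair_lt_pair_right _ (Nat.lt_succ_of_le (Nat.right_le_pair _ _))

/-- The point attached to the predecessor of a node. -/
def par (u : ℕ → X) (f : Node → X × StrongDual ℝ X × X) : Node → X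
  | (k, []) => u k
  | (k, _ :: s) => (f (k, s)).2.2

theorem exists_system {r θ : ℝ} (hθ : 0 < θ) (h : ∀ n, ∃ u : X, Tr r θ n u) :
    ∃ (x u : Node → X) (g : Node → StrongDual ℝ X), (∀ i j, i ≠ j → g i (x j) = 0) ∧
      (∀ i, g i (x i) = if i.2.length ≤ i.1 then 1 else 0) ∧ (∀ i, ‖g i‖ ≤ θ⁻¹) ∧
      (∀ k, u (k, []) = x (k, [])) ∧ (∀ k a s, u (k, a :: s) = u (k, s) + x (k, a :: s)) ∧
      ∀ i, i.2.length ≤ i.1 → ‖u i‖ ≤ 2 * r := by
  classical
  choose u hu using fun k => h (k + 1)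
  obtain ⟨f, hf⟩ := exists_rec (α := X × StrongDual ℝ X × X) (Encodable.encode (α := Node))
    (fun i f a => (∀ j, Encodable.encode j < Encodable.encode i →
      (f j).2.1 a.1 = 0 ∧ a.2.1 (f j).1 = 0) ∧ a.2.2 = par u f i + a.1 ∧ ‖a.2.1‖ ≤ 1 ∧
      (i.2.length ≤ i.1 → θ ≤ a.2.1 a.1 ∧ Tr r θ (i.1 - i.2.length) a.2.2)) (by
    rintro ⟨k, s⟩ f g a h1 ⟨h2, h3, h4⟩
    refine ⟨fun j hj => h1 j hj ▸ h2 j hj, ?_, h4⟩
    cases s with
    | nil => exact h3
    | cons b s =>
      rw [h3, par, par, h1 _ (encode_lt k b s)])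
  have fin : ∀ i : Node, {j : Node | Encodable.encode j < Encodable.encode i}.Finite := fun i =>
    (Set.finite_lt_nat _).preimage Encodable.encode_injective.injOn
  have ex : ∀ i : Node, (i.2.length ≤ i.1 → Tr r θ (i.1 - i.2.length + 1) (par u f i)) →
      ∃ a : X × StrongDual ℝ X × X, (∀ j, Encodable.encode j < Encodable.encode i →
      (f j).2.1 a.1 = 0 ∧ a.2.1 (f j).1 = 0) ∧ a.2.2 = par u f i + a.1 ∧ ‖a.2.1‖ ≤ 1 ∧
      (i.2.length ≤ i.1 → θ ≤ a.2.1 a.1 ∧ Tr r θ (i.1 - i.2.length) a.2.2) := by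
    intro i hi
    by_cases hl : i.2.length ≤ i.1
    · obtain ⟨x, g, a1, a2, a3, a4, a5⟩ := (hi hl).2
        ((fin i).toFinset.image fun j => (f j).2.1) ((fin i).toFinset.image fun j => (f j).1)
      exact ⟨(x, g, _), fun j hj =>
        ⟨a1 _ (Finset.mem_image_of_mem _ ((fin i).mem_toFinset.2 hj)),
          a2 _ (Finset.mem_image_of_mem _ ((fin i).mem_toFinset.2 hj))⟩, rfl, a3,
        fun _ => ⟨a4, a5⟩⟩
    · exact ⟨(0, 0, par u f i + 0), fun j _ => ⟨map_zero _, rfl⟩, rfl, by simp, fun h => absurd h hl⟩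
  have all : ∀ (k : ℕ) (s : List (ℕ × Bool)), s.length ≤ k →
      Tr r θ (k - s.length + 1) (par u f (k, s)) := by
    intro k s
    induction s with
    | nil => exact fun _ => hu k
    | cons b s ih =>
      intro hl
      rw [List.length_cons] at hl
      have h1 := ((hf (k, s) (ex (k, s) (ih ·))).2.2.2 (by change s.length ≤ k; omega)).2
      have e : k - s.length = k - (b :: s).length + 1 := by
        rw [List.length_cons]
        omega
      rw [← e]
      exact h1
  have H := fun i : Node => hf i (ex i (all i.1 i.2))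
  refine ⟨fun i => (f i).1, fun i => (f i).2.2 - u i.1,
    fun i => if i.2.length ≤ i.1 then ((f i).2.1 (f i).1)⁻¹ • (f i).2.1 else 0,
    fun i j hij => ?_, fun i => ?_, fun i => ?_, fun k => ?_, fun k a s => ?_, fun i hi => ?_⟩
  · have h0 : (f i).2.1 (f j).1 = 0 := by
      rcases lt_or_gt_of_ne (Encodable.encode_injective.ne hij) with h | h
      · exact ((H j).1 i h).1
      · exact ((H i).1 j h).2
    beta_reduce
    split_ifs
    · rw [smul_apply, h0, smul_zero]
    · rfl
  · beta_reduce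
    split_ifs with hl
    · rw [smul_apply, smul_eq_mul,
        inv_mul_cancel₀ (hθ.trans_le ((H i).2.2.2 hl).1).ne']
    · rfl
  · beta_reduce
    split_ifs with hl
    · have h1 := ((H i).2.2.2 hl).1
      rw [norm_smul, norm_inv, Real.norm_of_nonneg (hθ.le.trans h1)]
      exact (mul_le_of_le_one_right (inv_nonneg.2 (hθ.le.trans h1)) (H i).2.2.1).trans
        (inv_anti₀ hθ h1)
    · rw [norm_zero]
      positivity
  · beta_reduce
    rw [(H (k, [])).2.1, par, add_sub_cancel_left]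
  · beta_reduce
    rw [(H (k, a :: s)).2.1, par]
    abel
  · exact (norm_sub_le _ _).trans (by linarith [((H i).2.2.2 hi).2.norm_le, (hu i.1).norm_le])

theorem exists_sys {r θ : ℝ} (hθ : 0 < θ) (h : ∀ n, ∃ u : X, Tr r θ n u) :
    ∃ (Y : Submodule ℝ X) (_ : IsClosed (Y : Set X)),
      ∀ k, Nonempty (Sys (X ⧸ Y) k (2 * r) (2 * θ⁻¹)) := by
  obtain ⟨x, u, g, g0, g1, g2, u0, u1, u2⟩ := exists_system hθ h
  let ψ : ℕ → List (ℕ × Bool) → ℕ → StrongDual ℝ X := fun k s i =>
    g (k, (i, true) :: s) - g (k, (i, false) :: s)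
  let Y : Submodule ℝ X := (⨅ k, (g (k, [])).ker) ⊓ ⨅ k, ⨅ s, ⨅ i, (ψ k s i).ker
  have hγ : ∀ k, Y ≤ (g (k, [])).ker := fun k => inf_le_left.trans (iInf_le _ k)
  have hψ : ∀ k s i, Y ≤ (ψ k s i).ker := fun k s i =>
    inf_le_right.trans (iInf_le_of_le k (iInf_le_of_le s (iInf_le _ i)))
  have hY : ∀ k s i, x (k, (i, true) :: s) + x (k, (i, false) :: s) ∈ Y := by
    intro k s i
    refine ⟨(Submodule.mem_iInf _).2 fun k' => ?_, (Submodule.mem_iInf _).2 fun k' =>
      (Submodule.mem_iInf _).2 fun s' => (Submodule.mem_iInf _).2 fun i' => ?_⟩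
    · change g _ _ = 0
      rw [map_add, g0 _ _ (by simp), g0 _ _ (by simp), add_zero]
    · change g _ _ - g _ _ = 0
      by_cases he : k' = k ∧ i' = i ∧ s' = s
      · obtain ⟨rfl, rfl, rfl⟩ := he
        rw [map_add, map_add, g1, g1, g0 _ _ (by simp), g0 _ _ (by simp)]
        simp
      · rw [map_add, map_add, g0 _ _ (by simpa [and_assoc] using he), g0 _ _ (by simp),
          g0 _ _ (by simp), g0 _ _ (by simpa [and_assoc] using he)]
        simp
  have bd : ∀ (φ : StrongDual ℝ X) (hφ : Y ≤ φ.ker), ‖φ‖ ≤ 2 * θ⁻¹ →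
      ∀ v, |Y.liftQ φ.toLinearMap hφ v| ≤ 2 * θ⁻¹ * ‖v‖ := by
    intro φ hφ hn v
    obtain ⟨y, rfl⟩ := Y.mkQ_surjective v
    rw [← div_le_iff₀' (by positivity)]
    refine le_norm_mk Y fun e he => ?_
    rw [div_le_iff₀' (by positivity)]
    have h1 : φ e = 0 := hφ he
    have h2 := φ.le_opNorm (e + y)
    rw [map_add, h1, zero_add] at h2
    exact h2.trans (mul_le_mul_of_nonneg_right hn (norm_nonneg _))
  have hc : IsClosed (Y : Set X) := by
    rw [Submodule.coe_inf]
    simp only [Submodule.coe_iInf]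
    exact (isClosed_iInter fun k => (g _).isClosed_ker).inter (isClosed_iInter fun k =>
      isClosed_iInter fun s => isClosed_iInter fun i => (ψ k s i).isClosed_ker)
  refine ⟨Y, hc, fun k => ⟨{
    z := fun s => Y.mkQ (u (k, s))
    w := fun s i => Y.mkQ (x (k, (i, true) :: s))
    γ := Y.liftQ (g (k, [])).toLinearMap (hγ k)
    ψ := fun s i => Y.liftQ (ψ k s i).toLinearMap (hψ k s i)
    z_t := fun s i => by rw [u1, map_add]
    z_f := fun s i => ?_
    z_le := fun s hs => (Submodule.Quotient.norm_mk_le Y _).trans (u2 (k, s) hs)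
    γ_le := bd _ _ ((g2 _).trans (by linarith [inv_pos.2 hθ]))
    ψ_le := fun s i => bd _ _ ((norm_sub_le _ _).trans (by
      linarith [g2 (k, (i, true) :: s), g2 (k, (i, false) :: s)]))
    γ_z := ?_
    γ_w := fun s i => g0 _ _ (by simp)
    ψ_z := fun s i => ?_
    ψ_w := fun s i hs => ?_
    ψ_w' := fun s i s' i' hs => ?_ }⟩⟩
  · have h1 : Y.mkQ (x (k, (i, true) :: s) + x (k, (i, false) :: s)) = 0 :=
      (Submodule.Quotient.mk_eq_zero Y).2 (hY k s i)
    rw [map_add] at h1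
    rw [u1, map_add, sub_eq_add_neg, neg_eq_of_add_eq_zero_right h1]
  · change g _ (u _) = 1
    rw [u0, g1, if_pos (by exact Nat.zero_le k)]
  · change g _ (u _) - g _ (u _) = 0
    rw [u0, g0 _ _ (by simp), g0 _ _ (by simp), sub_zero]
  · change g _ (x _) - g _ (x _) = 1
    rw [g1, if_pos (by exact Nat.succ_le_of_lt hs), g0 _ _ (by simp), sub_zero]
  · change g _ (x _) - g _ (x _) = 0
    rw [g0 _ _ (fun h => hs (by simp at h; simp [h.1, h.2])), g0 _ _ (by simp), sub_zero]

/-- A reflexive space which is not AUC renormable has a quotient containing the diamonds. -/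
theorem exists_quot_diamonds (hX : Reflexive X) (h : ¬ AUCable X) {D : ℝ} (hD : 12 < D) :
    ∃ (Y : Submodule ℝ X) (_ : IsClosed (Y : Set X)), Diamonds (X ⧸ Y) D := by
  have hθ : 0 < 24 / (D + 12) := by positivity
  obtain ⟨Y, h1, h2⟩ := exists_sys hθ (tr_of_not hX h (r := 2 * D / (D + 12))
    (by rw [lt_div_iff₀ (by positivity)]; linarith) hθ
    (by rw [div_lt_one (by positivity)]; linarith))
  refine ⟨Y, h1, fun k => ?_⟩
  obtain ⟨S⟩ := h2 k
  obtain ⟨f, hf⟩ := S.embed
  refine ⟨f, 4 / (D + 12), by positivity, fun a b => ⟨?_, (hf a b).2.trans (le_of_eq ?_)⟩⟩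
  · refine (mul_le_mul_of_nonneg_left (hf a b).1 (by positivity)).trans (le_of_eq ?_)
    field_simp
    norm_num
  · ring

end Vale.Agent.N069Q
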