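import Vale.Agent.N069Q.Renorm

/-! P069: bounded asymptotic trees in a reflexive space which is not AUC renormable. -/

namespace Vale.Agent.N069Q

open Filter Topology

universe u

variable {X : Type u} [NormedAddCommGroup X] [NormedSpace ℝ X]

/-- `u` is the root of a tree of height `j` in the ball of radius `r`, the increments being
available in every finite intersection of kernels, with almost norming functionals available in
every annihilator. -/
def Tr (r θ : ℝ) : ℕ → X → Prop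
  | 0, u => ‖u‖ ≤ r
  | j + 1, u => ‖u‖ ≤ r ∧ ∀ (Φ : Finset (StrongDual ℝ X)) (E : Finset X), ∃ x h,
      Ker Φ x ∧ Ann E h ∧ ‖h‖ ≤ 1 ∧ θ ≤ h x ∧ Tr r θ j (u + x)

theorem Tr.norm_le {r θ : ℝ} {j : ℕ} {u : X} (h : Tr r θ j u) : ‖u‖ ≤ r := by
  cases j with
  | zero => exact h
  | succ j => exact h.1

theorem Tr.shift {r r' θ : ℝ} {v : X} (hv : r + ‖v‖ ≤ r') {j : ℕ} :
    ∀ {u : X}, Tr r θ j u → Tr r' θ j (u + v) := by
  induction j with
  | zero =>
    intro u h
    exact (norm_add_le u v).trans (by linarith [h.norm_le])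
  | succ j ih =>
    intro u h
    refine ⟨(norm_add_le u v).trans (by linarith [h.norm_le]), fun Φ E => ?_⟩
    obtain ⟨x, g, a, b, c, d, e⟩ := h.2 Φ E
    exact ⟨x, g, a, b, c, d, by rw [add_right_comm]; exact ih e⟩

theorem weak_limit (hX : Reflexive X) {ι : Type*} (U : Ultrafilter ι) {u : ι → X}
    (hu : ∀ i, ‖u i‖ ≤ 1) : ∃ w : X, ‖w‖ ≤ 1 ∧
      ∀ φ : StrongDual ℝ X, Tendsto (fun i => φ (u i)) U (𝓝 (φ w)) := by
  let J : ι → WeakDual ℝ (StrongDual ℝ X) := fun i =>
    StrongDual.toWeakDual (NormedSpace.inclusionInDoubleDual ℝ X (u i))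
  obtain ⟨Φ, h1, h2⟩ := (WeakDual.isCompact_closedBall (𝕜 := ℝ) (E := StrongDual ℝ X) 0 1
    ).ultrafilter_le_nhds' (U.map J) (Ultrafilter.mem_map.2 (Filter.univ_mem' fun i => by
      have a : ‖NormedSpace.inclusionInDoubleDual ℝ X (u i)‖ ≤ 1 :=
        (NormedSpace.double_dual_bound ℝ X _).trans (hu i)
      exact (mem_closedBall_zero_iff (E := StrongDual ℝ (StrongDual ℝ X))).2 a))
  obtain ⟨w, hw⟩ := hX (WeakDual.toStrongDual Φ)
  refine ⟨w, ?_, fun φ => ?_⟩
  · rw [← (NormedSpace.inclusionInDoubleDualLi (E := X) ℝ).norm_map w]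
    change ‖NormedSpace.inclusionInDoubleDual ℝ X w‖ ≤ 1
    rw [hw]
    exact mem_closedBall_zero_iff.1 h1
  · have h3 : Tendsto J U (𝓝 Φ) := h2
    have h4 := ((WeakDual.eval_continuous φ).tendsto Φ).comp h3
    have h5 : φ w = Φ φ := by
      rw [← NormedSpace.dual_def ℝ X w φ, hw]
      rfl
    rw [h5]
    exact h4

theorem tr_of_win (hX : Reflexive X) {η θ : ℝ} (hθ : θ < 1 - η) (j : ℕ) :
    ∀ (f : StrongDual ℝ X) (c r : ℝ), 1 < r → ‖f‖ - η ≤ c →
      Win 1 j (fun g => c + j < ‖f + g‖) → ∃ u, ‖u‖ ≤ 1 ∧ c ≤ f u ∧ Tr r θ j u := by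
  classical
  induction j with
  | zero =>
    intro f c r hr _ h
    have h1 : c < ‖f‖ := by simpa [Win] using h
    obtain ⟨x, k1, k2⟩ := f.exists_lt_apply_of_lt_opNorm h1
    rcases le_total 0 (f x) with s | s
    · exact ⟨x, k1.le, by rw [Real.norm_of_nonneg s] at k2; exact k2.le, (k1.trans hr).le⟩
    · refine ⟨-x, by rw [norm_neg]; exact k1.le, ?_, ?_⟩
      · rw [Real.norm_of_nonpos s] at k2
        rw [map_neg]
        exact k2.le
      · change ‖-x‖ ≤ r
        rw [norm_neg]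
        exact (k1.trans hr).le
  | succ j ih =>
    intro f c r hr hc h
    choose g g1 g2 g3 using h
    have k : ∀ E, ∃ u, ‖u‖ ≤ 1 ∧ c + 1 ≤ (f + g E) u ∧ Tr ((1 + r) / 2) θ j u := fun E =>
      ih (f + g E) (c + 1) _ (by linarith) (by linarith [norm_add_le f (g E), g2 E])
        ((g3 E).mono fun g' hg => by
          push_cast at hg
          rw [add_assoc f]
          linarith)
    choose v v1 v2 v3 using k
    have hb : ∀ (φ : StrongDual ℝ X) (x : X), φ x ≤ ‖φ‖ * ‖x‖ := fun φ x =>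
      (le_abs_self _).trans (φ.le_opNorm x)
    let U : Ultrafilter (Finset X) := Ultrafilter.of atTop
    have hU : (U : Filter (Finset X)) ≤ atTop := Ultrafilter.of_le _
    obtain ⟨u, u1, u2⟩ := weak_limit hX U v1
    refine ⟨u, u1, ge_of_tendsto' (u2 f) fun E => ?_, u1.trans hr.le, fun Φ E₀ => ?_⟩
    · have a := v2 E
      have b := hb (g E) (v E)
      have d := mul_le_one₀ (g2 E) (norm_nonneg _) (v1 E)
      rw [add_apply] at a
      linarith
    have h0 : ∀ φ : StrongDual ℝ X, Tendsto (fun E => φ (v E - u)) U (𝓝 0) := fun φ => by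
      simpa using (u2 φ).sub_const (φ u)
    obtain ⟨E, ⟨z, z1, z2⟩, hE⟩ := ((near_ker h0 Φ (ε := min ((r - 1) / 2) (1 - η - θ))
      (lt_min (by linarith) (by linarith))).and
      (hU (eventually_ge_atTop (insert u E₀)))).exists
    have z3 := (lt_min_iff.1 z2).1
    have z4 := (lt_min_iff.1 z2).2
    refine ⟨z, g E, z1, fun x hx => g1 E x (hE (Finset.mem_insert_of_mem hx)), g2 E, ?_, ?_⟩
    · have a := v2 E
      have b := hb (g E) (v E - u - z)
      have d := mul_le_of_le_one_left (norm_nonneg (v E - u - z)) (g2 E)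
      have e := hb f (v E)
      have e' := mul_le_of_le_one_right (norm_nonneg f) (v1 E)
      rw [map_sub, map_sub, g1 E u (hE (Finset.mem_insert_self _ _))] at b
      rw [add_apply] at a
      linarith
    · have e : u + z = v E + -(v E - u - z) := by abel
      rw [e]
      exact (v3 E).shift (by rw [norm_neg]; linarith)

theorem not_aucable_of_tr {r θ : ℝ} (hθ : 0 < θ) (hr : 0 < r) (h : ∀ n, ∃ u : X, Tr r θ n u) :
    ¬ AUCable X := by
  classical
  rintro ⟨Y, _, _, ⟨e⟩, hY⟩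
  obtain ⟨C, hC, b1⟩ := e.toContinuousLinearMap.bound
  obtain ⟨D, hD, b2⟩ := e.symm.toContinuousLinearMap.bound
  obtain ⟨δ, hδ, st⟩ := (auc_iff.1 hY).step rfl (κ := θ / D) (R := C * r) (by positivity)
    (by positivity)
  have hb : ∀ u : X, ‖u‖ ≤ r → ‖e u‖ ≤ C * r := fun u hu =>
    (b1 u).trans (mul_le_mul_of_nonneg_left hu hC.le)
  have key : ∀ (j : ℕ) (u : X), Tr r θ j u → ‖e u‖ + j * δ ≤ C * r := by
    intro j
    induction j with
    | zero => intro u hu; simpa using hb u hu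
    | succ j ih =>
      intro u hu
      obtain ⟨Φ, hΦ⟩ := st (e u) (hb u hu.1)
      obtain ⟨x, g, a, -, c, d, t⟩ := hu.2 (Φ.image fun φ => φ.comp e.toContinuousLinearMap) ∅
      have h1 : θ ≤ ‖x‖ := d.trans ((le_abs_self _).trans ((g.le_opNorm x).trans
        (mul_le_of_le_one_left (norm_nonneg _) c)))
      obtain ⟨σ, hσ, h2⟩ := hΦ (e x) (fun φ hφ => a _ (Finset.mem_image_of_mem _ hφ)) (by
        have := b2 (e x)
        simp only [ContinuousLinearEquiv.coe_coe, ContinuousLinearEquiv.symm_apply_apply] at this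
        rw [div_le_iff₀' hD]
        exact h1.trans this)
      have h3 := ih _ t
      rw [show σ = 1 from hσ, one_smul, ← map_add] at h2
      push_cast
      linarith
  obtain ⟨n, hn⟩ := exists_nat_gt (C * r / δ)
  obtain ⟨u, hu⟩ := h n
  have := key n u hu
  rw [div_lt_iff₀ hδ] at hn
  linarith [norm_nonneg (e u)]

theorem norm_le_comp_mkQL (Y : Submodule ℝ X) (g : StrongDual ℝ (X ⧸ Y)) :
    ‖g‖ ≤ ‖g.comp Y.mkQL‖ := by
  refine ContinuousLinearMap.opNorm_le_bound _ (norm_nonneg _) fun z => ?_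
  refine le_of_forall_pos_le_add fun ε hε => ?_
  have hp : 0 < ‖g.comp Y.mkQL‖ + 1 := by positivity
  obtain ⟨m, rfl, hm⟩ := Submodule.Quotient.norm_mk_lt z (div_pos hε hp)
  have h1 := (g.comp Y.mkQL).le_opNorm m
  have h2 := mul_le_mul_of_nonneg_left hm.le (norm_nonneg (g.comp Y.mkQL))
  have h3 : ‖g.comp Y.mkQL‖ * (ε / (‖g.comp Y.mkQL‖ + 1)) ≤ ε := by
    rw [← mul_div_assoc, div_le_iff₀ hp]
    nlinarith
  rw [mul_add] at h2
  exact h1.trans (h2.trans (add_le_add le_rfl h3))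

theorem win_of_quot (Y : Submodule ℝ X) [IsClosed (Y : Set X)] {n : ℕ} :
    ∀ {P : StrongDual ℝ (X ⧸ Y) → Prop}, Win 1 n P →
      Win 1 n fun g : StrongDual ℝ X => ∃ g', g = g'.comp Y.mkQL ∧ P g' := by
  classical
  induction n with
  | zero => exact fun h => ⟨0, (ContinuousLinearMap.zero_comp _).symm, h⟩
  | succ n ih =>
    intro P h E
    obtain ⟨g, a, b, c⟩ := h (E.image Y.mkQL)
    refine ⟨g.comp Y.mkQL, fun x hx => a _ (Finset.mem_image_of_mem _ hx),
      (norm_comp_mkQL_le Y g).trans b, (ih c).mono ?_⟩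
    rintro _ ⟨g', rfl, d⟩
    exact ⟨g + g', (ContinuousLinearMap.add_comp _ _ _).symm, d⟩

/-- Trees exist as soon as some quotient is not AUC renormable. -/
theorem tr_of_quot (hX : Reflexive X) (Y : Submodule ℝ X) [IsClosed (Y : Set X)]
    (h : ¬ AUCable (X ⧸ Y)) {r θ : ℝ} (hr : 1 < r) (hθ0 : 0 < θ) (hθ : θ < 1) (n : ℕ) :
    ∃ u : X, Tr r θ n u := by
  have h1 : Win 1 n fun g : StrongDual ℝ (X ⧸ Y) => n - (1 - θ) / 2 < ‖g‖ := by
    by_contra hc
    exact h (aucable_of_not_win (by linarith) (by linarith) hc)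
  obtain ⟨u, -, -, hu⟩ := tr_of_win hX (η := (1 - θ) / 2) (θ := θ) (by linarith) n 0
    (-((1 - θ) / 2)) r hr (by simp) ((win_of_quot Y h1).mono (by
      rintro _ ⟨g, rfl, hg⟩
      rw [zero_add]
      linarith [norm_le_comp_mkQL Y g]))
  exact ⟨u, hu⟩

theorem tr_of_not (hX : Reflexive X) (h : ¬ AUCable X) {r θ : ℝ} (hr : 1 < r) (hθ0 : 0 < θ)
    (hθ : θ < 1) (n : ℕ) : ∃ u : X, Tr r θ n u := by
  have h1 : Win 1 n fun g : StrongDual ℝ X => n - (1 - θ) / 2 < ‖g‖ := by
    by_contra hc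
    exact h (aucable_of_not_win (by linarith) (by linarith) hc)
  obtain ⟨u, -, -, hu⟩ := tr_of_win hX (η := (1 - θ) / 2) (θ := θ) (by linarith) n 0
    (-((1 - θ) / 2)) r hr (by simp) (h1.mono fun g hg => by
      rw [zero_add]
      linarith)
  exact ⟨u, hu⟩

/-- AUC renormability passes to the quotients of a reflexive space. -/
theorem AUCable.quot (hX : Reflexive X) (h : AUCable X) (Y : Submodule ℝ X)
    [IsClosed (Y : Set X)] : AUCable (X ⧸ Y) := by
  by_contra hc
  exact not_aucable_of_tr (r := 2) (θ := 1 / 2) (by norm_num) (by norm_num)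
    (tr_of_quot hX Y hc (by norm_num) (by norm_num) (by norm_num)) h

end Vale.Agent.N069Q
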